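import Mathlib
import Vale.Agent.P268.Hol

/-! P271, several complex variables base (helper408): mean value inequalities on polydiscs. -/

open MeasureTheory Filter Topology Metric
open scoped ENNReal NNReal

namespace Vale.Agent.P271.H408

variable {n : ℕ} {F : Type*} [NormedAddCommGroup F] [NormedSpace ℂ F]

/-- Multiplication by a unit complex number preserves Lebesgue measure. -/
theorem measurePreserving_unit (c : ℂ) (hc : ‖c‖ = 1) :
    MeasurePreserving (fun v : Fin n → ℂ => c • v) volume volume := by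
  have h2 : MeasurePreserving (fun w : ℂ => c * w) volume volume := by
    have h4 : c ∈ Submonoid.unitSphere ℂ := by
      simp [Submonoid.unitSphere, hc]
    exact (rotation (⟨c, h4⟩ : Circle)).measurePreserving
  exact volume_preserving_pi (fun _ : Fin n => h2)

theorem lintegral_unit (c : ℂ) (hc : ‖c‖ = 1) (f : (Fin n → ℂ) → ℝ≥0∞) :
    ∫⁻ v, f (c • v) = ∫⁻ v, f v := by
  have hc0 : c ≠ 0 := by
    intro h
    rw [h, norm_zero] at hc
    exact zero_ne_one hc
  exact (measurePreserving_unit c hc).lintegral_comp_emb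
    (Homeomorph.smulOfNeZero c hc0).measurableEmbedding f

theorem integral_unit (c : ℂ) (hc : ‖c‖ = 1) {G : Type*} [NormedAddCommGroup G] [NormedSpace ℝ G]
    (f : (Fin n → ℂ) → G) : ∫ v, f (c • v) = ∫ v, f v := by
  have hc0 : c ≠ 0 := by
    intro h
    rw [h, norm_zero] at hc
    exact zero_ne_one hc
  exact (measurePreserving_unit c hc).integral_comp
    (Homeomorph.smulOfNeZero c hc0).measurableEmbedding f

/-- Holomorphic functions restricted to a complex line through `z`. -/
theorem diff_line {E : Type*} [NormedAddCommGroup E] [NormedSpace ℂ E] {f : E → F} {z v : E}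
    {r : ℝ} (hf : DifferentiableOn ℂ f (ball z r)) (hv : ‖v‖ < r) :
    DifferentiableOn ℂ (fun t : ℂ => f (z + t • v)) (closedBall 0 1) := by
  refine hf.comp (by fun_prop) fun t ht => ?_
  rw [mem_closedBall_zero_iff] at ht
  rw [mem_ball, dist_eq_norm, add_sub_cancel_left, norm_smul]
  calc ‖t‖ * ‖v‖ ≤ 1 * ‖v‖ := by gcongr
    _ < r := by rwa [one_mul]

/-- Mean value property on a circle in a complex line. -/
theorem circle_mean [CompleteSpace F] {E : Type*} [NormedAddCommGroup E] [NormedSpace ℂ E]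
    {f : E → F} {z v : E}
    {r : ℝ} (hf : DifferentiableOn ℂ f (ball z r)) (hv : ‖v‖ < r) :
    (2 * Real.pi)⁻¹ • ∫ θ in (0 : ℝ)..2 * Real.pi, f (z + circleMap 0 1 θ • v) = f z := by
  have hd := diff_line hf hv
  have h0 : DiffContOnCl ℂ (fun t : ℂ => f (z + t • v)) (ball (0 : ℂ) |1|) := by
    apply DifferentiableOn.diffContOnCl
    rw [abs_one, closure_ball _ one_ne_zero]
    exact hd
  have h1 := h0.circleAverage
  rw [Real.circleAverage] at h1
  rw [h1, zero_smul, add_zero]

/-- Sub mean value inequality on a circle in a complex line. -/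
theorem enorm_le_circle [CompleteSpace F] {E : Type*} [NormedAddCommGroup E] [NormedSpace ℂ E]
    {f : E → F} {z v : E}
    {r : ℝ} (hf : DifferentiableOn ℂ f (ball z r)) (hv : ‖v‖ < r) :
    ENNReal.ofReal (2 * Real.pi) * ‖f z‖ₑ ≤
      ∫⁻ θ in Set.Ioc (0 : ℝ) (2 * Real.pi), ‖f (z + circleMap 0 1 θ • v)‖ₑ := by
  have hpi : (0 : ℝ) < 2 * Real.pi := by positivity
  rw [← circle_mean hf hv]
  rw [enorm_smul, ← mul_assoc]
  have h1 : ENNReal.ofReal (2 * Real.pi) * ‖(2 * Real.pi)⁻¹‖ₑ = 1 := by
    rw [Real.enorm_eq_ofReal (by positivity), ← ENNReal.ofReal_mul hpi.le,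
      mul_inv_cancel₀ hpi.ne', ENNReal.ofReal_one]
  rw [h1, one_mul, intervalIntegral.integral_of_le hpi.le]
  exact enorm_integral_le_lintegral_enorm _

/-- **Sub mean value inequality on polydiscs.** -/
theorem enorm_mul_volume_le [CompleteSpace F] {f : (Fin n → ℂ) → F} {z : Fin n → ℂ} {r : ℝ}
    (hf : DifferentiableOn ℂ f (ball z r)) :
    ‖f z‖ₑ * volume (ball z r) ≤ ∫⁻ w in ball z r, ‖f w‖ₑ := by
  have hpi : (0 : ℝ) < 2 * Real.pi := by positivity
  -- translate to the origin
  have hvol : volume (ball z r) = volume (ball (0 : Fin n → ℂ) r) :=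
    Measure.addHaar_ball_center _ _ _
  set S : Set (Fin n → ℂ) := ball 0 r with hS
  have hSm : MeasurableSet S := measurableSet_ball
  -- the function extended by zero
  let g : (Fin n → ℂ) → ℝ≥0∞ := S.indicator fun v => ‖f (z + v)‖ₑ
  have hgm : Measurable g := by
    have h1 : ContinuousOn (fun v => ‖f (z + v)‖ₑ) S := by
      refine (hf.continuousOn.comp (by fun_prop) fun v hv => ?_).enorm
      rw [hS, mem_ball_zero_iff] at hv
      rw [mem_ball, dist_eq_norm, add_sub_cancel_left]; exact hv
    classical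
    have h2 := h1.measurable_piecewise (g := (0 : (Fin n → ℂ) → ℝ≥0∞)) continuousOn_const hSm
    rwa [Set.piecewise_eq_indicator] at h2
  have htrans : ∫⁻ w in ball z r, ‖f w‖ₑ = ∫⁻ v, g v := by
    rw [← lintegral_indicator measurableSet_ball,
      ← lintegral_add_left_eq_self _ z]
    apply lintegral_congr
    intro v
    by_cases hv : v ∈ S
    · have h2 : z + v ∈ ball z r := by
        rw [hS, mem_ball_zero_iff] at hv
        rw [mem_ball, dist_eq_norm, add_sub_cancel_left]; exact hv
      rw [Set.indicator_of_mem h2]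
      exact (Set.indicator_of_mem hv (fun v => ‖f (z + v)‖ₑ)).symm
    · have h2 : z + v ∉ ball z r := by
        rw [hS, mem_ball_zero_iff] at hv
        rw [mem_ball, dist_eq_norm, add_sub_cancel_left]; exact hv
      rw [Set.indicator_of_notMem h2]
      exact (Set.indicator_of_notMem hv _).symm
  have hrot : ∀ θ : ℝ, ∫⁻ v, g (circleMap 0 1 θ • v) = ∫⁻ v, g v := fun θ =>
    lintegral_unit _ (by simp) g
  have h1 : ∀ v, S.indicator (fun _ => ENNReal.ofReal (2 * Real.pi) * ‖f z‖ₑ) v ≤
      ∫⁻ θ in Set.Ioc (0 : ℝ) (2 * Real.pi), g (circleMap 0 1 θ • v) := by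
    intro v
    by_cases hv : v ∈ S
    · rw [Set.indicator_of_mem hv]
      have hv' : ‖v‖ < r := by rwa [hS, mem_ball_zero_iff] at hv
      refine (enorm_le_circle hf hv').trans (le_of_eq ?_)
      apply lintegral_congr
      intro θ
      have h2 : circleMap 0 1 θ • v ∈ S := by
        rw [hS, mem_ball_zero_iff, norm_smul]
        simpa using hv'
      exact (Set.indicator_of_mem h2 (fun v => ‖f (z + v)‖ₑ)).symm
    · rw [Set.indicator_of_notMem hv]
      exact zero_le
  have h2 : ∫⁻ v, S.indicator (fun _ => ENNReal.ofReal (2 * Real.pi) * ‖f z‖ₑ) v ≤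
      ∫⁻ v, ∫⁻ θ in Set.Ioc (0 : ℝ) (2 * Real.pi), g (circleMap 0 1 θ • v) :=
    lintegral_mono h1
  rw [lintegral_indicator hSm, setLIntegral_const] at h2
  have hmeas : Measurable (Function.uncurry fun (v : Fin n → ℂ) (θ : ℝ) =>
      g (circleMap 0 1 θ • v)) := by
    apply hgm.comp
    apply Continuous.measurable
    exact ((continuous_circleMap 0 1).comp continuous_snd).smul continuous_fst
  rw [lintegral_lintegral_swap hmeas.aemeasurable] at h2
  simp only [hrot] at h2
  rw [setLIntegral_const, Real.volume_Ioc, sub_zero, mul_comm (∫⁻ v, g v), mul_assoc] at h2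
  have h3 := (ENNReal.mul_le_mul_iff_right (a := ENNReal.ofReal (2 * Real.pi))
    (by simpa using hpi) ENNReal.ofReal_ne_top).1 h2
  rw [hvol, htrans]
  exact h3

/-- The `L²` bound for the values of a holomorphic function. -/
theorem enorm_sq_mul_volume_le {f : (Fin n → ℂ) → ℂ} {z : Fin n → ℂ} {r : ℝ}
    (hf : DifferentiableOn ℂ f (ball z r)) :
    ‖f z‖ₑ ^ 2 * volume (ball z r) ≤ ∫⁻ w in ball z r, ‖f w‖ₑ ^ 2 := by
  have h1 := enorm_mul_volume_le (f := fun w => f w ^ 2) (hf.pow 2)
  simpa only [enorm_pow] using h1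

/-- Mean value property with a circled weight. -/
theorem integral_circled [CompleteSpace F] {f : (Fin n → ℂ) → F} {r : ℝ}
    (hf : DifferentiableOn ℂ f (ball 0 r)) {ρ : (Fin n → ℂ) → ℝ}
    (hρ : Continuous ρ) (hs : HasCompactSupport ρ) (hr : tsupport ρ ⊆ ball 0 r)
    (hc : ∀ (c : ℂ) (v : Fin n → ℂ), ‖c‖ = 1 → ρ (c • v) = ρ v) :
    ∫ v, ρ v • f v = (∫ v, ρ v) • f 0 := by
  have hpi : (0 : ℝ) ≤ 2 * Real.pi := by positivity
  -- continuity of `ρ • f`
  have hcg : Continuous fun v => ρ v • f v := by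
    rw [continuous_iff_continuousAt]
    intro v
    by_cases hv : v ∈ tsupport ρ
    · exact hρ.continuousAt.smul (hf.continuousOn.continuousAt (isOpen_ball.mem_nhds (hr hv)))
    · have h1 : (fun v => ρ v • f v) =ᶠ[𝓝 v] fun _ => 0 := by
        have h2 : (tsupport ρ)ᶜ ∈ 𝓝 v := (isClosed_tsupport ρ).isOpen_compl.mem_nhds hv
        filter_upwards [h2] with w hw
        rw [image_eq_zero_of_notMem_tsupport hw, zero_smul]
      exact continuousAt_const.congr h1.symm
  have hrot : ∀ θ : ℝ, ∫ v, ρ v • f (circleMap 0 1 θ • v) = ∫ v, ρ v • f v := by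
    intro θ
    have hn : ‖circleMap 0 1 θ‖ = 1 := by simp
    rw [← integral_unit (circleMap 0 1 θ) hn (fun v => ρ v • f v)]
    apply integral_congr_ae
    filter_upwards with v
    rw [hc _ _ hn]
  have hcont : Continuous (Function.uncurry fun (v : Fin n → ℂ) (θ : ℝ) =>
      ρ v • f (circleMap 0 1 θ • v)) := by
    have h1 : (Function.uncurry fun (v : Fin n → ℂ) (θ : ℝ) =>
      ρ v • f (circleMap 0 1 θ • v)) = (fun v => ρ v • f v) ∘
        fun p : (Fin n → ℂ) × ℝ => circleMap 0 1 p.2 • p.1 := by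
      funext p
      simp only [Function.uncurry, Function.comp]
      rw [hc _ _ (by simp)]
    rw [h1]
    exact hcg.comp (((continuous_circleMap 0 1).comp continuous_snd).smul continuous_fst)
  have hint : Integrable (Function.uncurry fun (v : Fin n → ℂ) (θ : ℝ) =>
      ρ v • f (circleMap 0 1 θ • v)) (volume.prod (volume.restrict (Set.Ioc 0 (2 * Real.pi)))) := by
    have hK : IsCompact (tsupport ρ ×ˢ Set.Icc (0 : ℝ) (2 * Real.pi)) :=
      hs.isCompact.prod isCompact_Icc
    have h1 : IntegrableOn (Function.uncurry fun (v : Fin n → ℂ) (θ : ℝ) =>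
        ρ v • f (circleMap 0 1 θ • v)) (tsupport ρ ×ˢ Set.Icc (0 : ℝ) (2 * Real.pi))
        (volume.prod volume) := hcont.continuousOn.integrableOn_compact hK
    have h2 : IntegrableOn (Function.uncurry fun (v : Fin n → ℂ) (θ : ℝ) =>
        ρ v • f (circleMap 0 1 θ • v)) (Set.univ ×ˢ Set.Icc (0 : ℝ) (2 * Real.pi))
        (volume.prod volume) := by
      apply h1.of_forall_sdiff_eq_zero (MeasurableSet.univ.prod measurableSet_Icc)
      rintro ⟨v, θ⟩ ⟨⟨_, h3⟩, h4⟩
      have h5 : v ∉ tsupport ρ := fun h => h4 ⟨h, h3⟩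
      simp only [Function.uncurry_apply_pair]
      rw [image_eq_zero_of_notMem_tsupport h5, zero_smul]
    have h3 := h2.mono_set (Set.prod_mono subset_rfl Set.Ioc_subset_Icc_self)
    rw [IntegrableOn, ← Measure.prod_restrict, Measure.restrict_univ] at h3
    exact h3
  have h1 : ∫ v, (2 * Real.pi)⁻¹ • ∫ θ in (0 : ℝ)..2 * Real.pi, ρ v • f (circleMap 0 1 θ • v)
      = (∫ v, ρ v) • f 0 := by
    rw [← integral_smul_const]
    apply integral_congr_ae
    filter_upwards with v
    by_cases hv : v ∈ tsupport ρ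
    · have hv' : ‖v‖ < r := by simpa using hr hv
      have h2 := circle_mean hf hv'
      simp only [zero_add] at h2
      rw [intervalIntegral.integral_smul, smul_comm, h2]
    · rw [image_eq_zero_of_notMem_tsupport hv]
      simp
  rw [← h1, integral_smul]
  simp only [intervalIntegral.integral_of_le hpi]
  rw [integral_integral_swap hint]
  simp only [hrot]
  rw [setIntegral_const, Measure.real, Real.volume_Ioc, sub_zero, ENNReal.toReal_ofReal hpi,
    smul_smul, inv_mul_cancel₀ (by positivity), one_smul]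

end Vale.Agent.P271.H408
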