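import Vale.Agent.P282.Bd3.B1
import Vale.Agent.P271.H408.Weyl

/-! P271 (helper408), block GLOB-A (A4): Weyl's lemma for `∂̄` on the total space of `Sheets`. -/

open MeasureTheory Filter Topology Metric
open scoped ENNReal NNReal ContDiff ComplexConjugate

namespace Vale.Agent.P271.H408

open Vale.Agent.P282.L2 Vale.Agent.P282.L2.Sheets

variable {n N : ℕ} {S : Sheets n N}

theorem memLp_indicator {τ : (Fin n → ℂ) × ℂ → ℂ} (hm : AEStronglyMeasurable τ S.μ)
    {K : Set (Fin n → ℂ)} (hK : IsCompact K)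
    (h2 : ∫⁻ q in {q : (Fin n → ℂ) × ℂ | q.1 ∈ K}, ‖τ q‖ₑ ^ 2 ∂S.μ < ⊤) :
    MemLp ({q : (Fin n → ℂ) × ℂ | q.1 ∈ K}.indicator τ) 2 S.μ := by
  have hKm : MeasurableSet {q : (Fin n → ℂ) × ℂ | q.1 ∈ K} := hdc_meas_fst hK
  rw [memLp_indicator_iff_restrict hKm, memLp_two_iff_integrable_sq_norm hm.restrict]
  refine ⟨(hm.restrict.norm.pow 2), ?_⟩
  rw [HasFiniteIntegral]
  refine lt_of_le_of_lt (lintegral_mono fun q => ?_) h2
  rw [enorm_pow, enorm_norm]

/-- **Weyl's lemma on `M`** (A4). -/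
theorem weylM {τ : (Fin n → ℂ) × ℂ → ℂ} (hm : AEStronglyMeasurable τ S.μ)
    (h2 : ∀ K : Set (Fin n → ℂ), IsCompact K → K ⊆ S.V →
      ∫⁻ q in {q : (Fin n → ℂ) × ℂ | q.1 ∈ K}, ‖τ q‖ₑ ^ 2 ∂S.μ < ⊤)
    (hw : ∀ κ : (Fin n → ℂ) × ℂ → ℂ, S.IsTest κ → ∀ j, ∫ q, τ q * S.Db j κ q ∂S.μ = 0) :
    ∃ F : (Fin n → ℂ) × ℂ → ℂ, S.Holo F ∧ τ =ᵐ[S.μ] F := by
  obtain ⟨c, hc, hd⟩ := exists_dual S
  -- the moments are weakly holomorphic
  have key : ∀ i, ∃ f : (Fin n → ℂ) → ℂ, DifferentiableOn ℂ f S.V ∧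
      S.fsum (fun q => τ q * c i q) =ᵐ[volume.restrict S.V] f := by
    intro i
    apply weyl_local S.isOpen
    · rw [locallyIntegrableOn_iff S.isOpen.isLocallyClosed]
      intro K hKV hK
      set X' : (Fin n → ℂ) × ℂ → ℂ := {q : (Fin n → ℂ) × ℂ | q.1 ∈ K}.indicator τ with hX'
      have hX'K : ∀ q : (Fin n → ℂ) × ℂ, q.1 ∉ K → X' q = 0 := fun q hq =>
        Set.indicator_of_notMem (by exact hq) _
      have hX'm : MemLp X' 2 S.μ := memLp_indicator hm hK (h2 K hK hKV)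
      have h1 := (hdc_int hX'm ((hc i).CD 0) hK hKV hX'K (φ := fun _ => 1)
        continuousOn_const).2.1
      simp only [mul_one] at h1
      refine (h1.integrableOn (s := K)).congr_fun (fun z hz => ?_) hK.measurableSet
      have hXe : ∀ w, X' (z, w) = τ (z, w) := fun w => Set.indicator_of_mem (by exact hz) _
      unfold fsum
      refine Finset.sum_congr rfl fun w _ => ?_
      simp only [hXe]
    · intro κ hκ hκc hκV j
      have hκ2 : ContDiff ℝ 2 κ := contDiff_infty.1 hκ 2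
      set K := tsupport κ with hK
      have hKc : IsCompact K := hκc
      have hκK : ∀ z ∉ K, κ z = 0 := fun z hz => image_eq_zero_of_notMem_tsupport hz
      have htest : S.IsTest (fun q => c i q * κ q.1) := hdc_isTest hκ2 hKc hκV hκK (hc i)
      have h1 := hw _ htest j
      set X' : (Fin n → ℂ) × ℂ → ℂ := {q : (Fin n → ℂ) × ℂ | q.1 ∈ K}.indicator τ with hX'
      have hX'K : ∀ q : (Fin n → ℂ) × ℂ, q.1 ∉ K → X' q = 0 := fun q hq =>
        Set.indicator_of_notMem (by exact hq) _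
      have hX'm : MemLp X' 2 S.μ := memLp_indicator hm hKc (h2 K hKc hκV)
      have h3 := (hdc_int hX'm ((hc i).CD 0) hKc hκV hX'K (φ := dzb j κ)
        (hdc_cont_dzb hκ2 j).continuousOn).2.2
      have h4 : ∫ q, τ q * S.Db j (fun q => c i q * κ q.1) q ∂S.μ =
          ∫ q, X' q * c i q * dzb j κ q.1 ∂S.μ := by
        apply integral_congr_ae
        filter_upwards [ae_mem_M] with q hq
        rw [hdc_Db hκ2 (hc i) hq]
        by_cases hqK : q.1 ∈ K
        · rw [hX', Set.indicator_of_mem (by exact hqK), mul_assoc]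
        · rw [dzb_eq_zero_of_notMem j hqK]
          simp
      rw [← h1, h4, h3]
      apply integral_congr_ae
      filter_upwards with z
      by_cases hz : z ∈ K
      · have hXe : ∀ w, X' (z, w) = τ (z, w) := fun w => Set.indicator_of_mem (by exact hz) _
        have : S.fsum (fun q => X' q * c i q) z = S.fsum (fun q => τ q * c i q) z := by
          unfold fsum
          refine Finset.sum_congr rfl fun w _ => ?_
          simp only [hXe]
        rw [this]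
      · rw [dzb_eq_zero_of_notMem j hz, mul_zero, mul_zero]
  choose f hf hfe using key
  refine ⟨fun q => ∑ i : Fin N, f i q.1 * q.2 ^ (i : ℕ), ?_, ?_⟩
  · intro W s hs
    apply DifferentiableOn.fun_sum
    intro i _
    exact ((hf i).mono hs.subset).mul (hs.diff.pow _)
  · rw [Filter.EventuallyEq, ae_μ_iff]
    filter_upwards [ae_all_iff.2 hfe, ae_restrict_mem S.isOpen.measurableSet] with z hz hzV w hw'
    rw [hdc_recon hd τ (q := (z, w)) ⟨hzV, hw'⟩]
    refine Finset.sum_congr rfl fun i _ => ?_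
    simp only
    rw [hz i]

theorem lintegral_sq_lt_top_of_CD {X : (Fin n → ℂ) × ℂ → ℂ} (hX : S.CD 0 X)
    {K : Set (Fin n → ℂ)} (hK : IsCompact K) (hKV : K ⊆ S.V) :
    ∫⁻ q in {q : (Fin n → ℂ) × ℂ | q.1 ∈ K}, ‖X q‖ₑ ^ 2 ∂S.μ < ⊤ := by
  obtain ⟨B, hB⟩ := exists_bound hX hK hKV
  have hB' : ∀ᵐ q ∂(S.μ.restrict {q : (Fin n → ℂ) × ℂ | q.1 ∈ K}),
      ‖X q‖ₑ ^ 2 ≤ ENNReal.ofReal |B| ^ 2 := by
    filter_upwards [ae_restrict_of_ae (ae_mem_M (S := S)),
      ae_restrict_mem (hdc_meas_fst hK)] with q hq1 hq2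
    gcongr
    rw [← ofReal_norm]
    exact ENNReal.ofReal_le_ofReal ((hB q hq1 hq2).trans (le_abs_self _))
  refine (lintegral_mono_ae hB').trans_lt ?_
  rw [setLIntegral_const]
  exact ENNReal.mul_lt_top (by simp) (μ_lt_top hK hKV)

/-- If `∂̄ u = ∂̄ σ` weakly, with `σ` of class `C¹` and `u` in `L²_loc`, then `σ - u` is a.e. equal
to a holomorphic function. -/
theorem weylM_sub {u σ : (Fin n → ℂ) × ℂ → ℂ} (hσ : S.CD 1 σ) (hm : AEStronglyMeasurable u S.μ)
    (h2 : ∀ K : Set (Fin n → ℂ), IsCompact K → K ⊆ S.V →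
      ∫⁻ q in {q : (Fin n → ℂ) × ℂ | q.1 ∈ K}, ‖u q‖ₑ ^ 2 ∂S.μ < ⊤)
    (hw : ∀ κ : (Fin n → ℂ) × ℂ → ℂ, S.IsTest κ → ∀ j,
      ∫ q, u q * S.Db j κ q ∂S.μ = -∫ q, S.Db j σ q * κ q ∂S.μ) :
    ∃ F : (Fin n → ℂ) × ℂ → ℂ, S.Holo F ∧ (fun q => σ q - u q) =ᵐ[S.μ] F := by
  have hσ0 : S.CD 0 σ := hσ.mono (Nat.zero_le 1)
  apply weylM (τ := fun q => σ q - u q) ((aestronglyMeasurable_of_CD hσ0).sub hm)
  · intro K hK hKV
    have h3 := lintegral_sq_lt_top_of_CD hσ0 hK hKV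
    have h4 := h2 K hK hKV
    have h5 : ∀ q, ‖σ q - u q‖ₑ ^ 2 ≤ 4 * ‖σ q‖ₑ ^ 2 + 4 * ‖u q‖ₑ ^ 2 := by
      intro q
      have h6 : ‖σ q - u q‖ ^ 2 ≤ 4 * ‖σ q‖ ^ 2 + 4 * ‖u q‖ ^ 2 := by
        have h7 := norm_sub_le (σ q) (u q)
        nlinarith [norm_nonneg (σ q - u q), norm_nonneg (σ q), norm_nonneg (u q),
          sq_nonneg (‖σ q‖ - ‖u q‖)]
      calc ‖σ q - u q‖ₑ ^ 2 = ENNReal.ofReal (‖σ q - u q‖ ^ 2) := by
            rw [← ofReal_norm, ENNReal.ofReal_pow (norm_nonneg _)]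
        _ ≤ ENNReal.ofReal (4 * ‖σ q‖ ^ 2 + 4 * ‖u q‖ ^ 2) := ENNReal.ofReal_le_ofReal h6
        _ = 4 * ‖σ q‖ₑ ^ 2 + 4 * ‖u q‖ₑ ^ 2 := by
            rw [ENNReal.ofReal_add (by positivity) (by positivity),
              ENNReal.ofReal_mul (by norm_num), ENNReal.ofReal_mul (by norm_num),
              ENNReal.ofReal_pow (norm_nonneg _), ENNReal.ofReal_pow (norm_nonneg _),
              ofReal_norm, ofReal_norm]
            norm_num
    refine (lintegral_mono h5).trans_lt ?_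
    rw [lintegral_add_left' (((aestronglyMeasurable_of_CD hσ0).restrict.enorm.pow_const
      2).const_mul 4), lintegral_const_mul' _ _ (by norm_num),
      lintegral_const_mul' _ _ (by norm_num)]
    exact ENNReal.add_lt_top.2 ⟨ENNReal.mul_lt_top (by norm_num) h3,
      ENNReal.mul_lt_top (by norm_num) h4⟩
  · intro κ hκ j
    obtain ⟨K, hK, hKV, hK0⟩ := hκ.2
    have hDb0 : S.CD 0 (S.Db j κ) := CD.Db (m := 0) (hκ.1.mono (by norm_num))
    have hDbK : ∀ q : (Fin n → ℂ) × ℂ, q.1 ∉ K → S.Db j κ q = 0 := by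
      intro q hq
      have h1 : (fun z => κ (z, S.sec q z)) =ᶠ[𝓝 q.1] fun _ => 0 := by
        filter_upwards [hK.isClosed.isOpen_compl.mem_nhds hq] with z hz
        exact hK0 _ hz
      show dzb j (fun z => κ (z, S.sec q z)) q.1 = 0
      rw [dzb_congr h1, dzb_const]
    have i1 : Integrable (fun q => σ q * S.Db j κ q) S.μ :=
      integrable_of_supp (hσ0.mul hDb0) ⟨K, hK, hKV, fun q hq => by simp [hDbK q hq]⟩
    have i2 : Integrable (fun q => u q * S.Db j κ q) S.μ := by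
      set X' : (Fin n → ℂ) × ℂ → ℂ := {q : (Fin n → ℂ) × ℂ | q.1 ∈ K}.indicator u with hX'
      have hX'K : ∀ q : (Fin n → ℂ) × ℂ, q.1 ∉ K → X' q = 0 := fun q hq =>
        Set.indicator_of_notMem (by exact hq) _
      refine (hdc_integrable (memLp_indicator hm hK (h2 K hK hKV)) hDb0 hK hKV hX'K).congr
        (Eventually.of_forall fun q => ?_)
      by_cases hq : q.1 ∈ K
      · have : X' q = u q := Set.indicator_of_mem (by exact hq) _
        show X' q * S.Db j κ q = u q * S.Db j κ q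
        rw [this]
      · simp only [hDbK q hq, mul_zero]
    have h3 : ∫ q, (σ q - u q) * S.Db j κ q ∂S.μ =
        ∫ q, σ q * S.Db j κ q ∂S.μ - ∫ q, u q * S.Db j κ q ∂S.μ := by
      rw [← integral_sub i1 i2]
      apply integral_congr_ae
      filter_upwards with q
      ring
    rw [h3, integral_mul_Db hσ (hκ.1.mono (by norm_num)) hκ.2, hw κ hκ j, sub_self]

end Vale.Agent.P271.H408
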