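import Vale.Agent.P271.H408.ChartM
import Vale.Agent.P271.H741.CoreDefs

/-! P271 (helper408), (P1) of GLOB-B with helper741's jacobian `Cov.jc`. -/

open MeasureTheory Filter Topology Metric
open scoped ENNReal NNReal

set_option linter.unusedSectionVars false

namespace Vale.Agent.P271.H408

open Vale.Agent.P282.L2 Vale.Agent.P282.L2.Sheets Vale.Agent.P271.Sch Vale.Agent.P271.H741

variable {n : ℕ} {C : GCone n} [Algebra (Pol (n + 1)) C.K] [IsScalarTower ℂ (Pol (n + 1)) C.K]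
  [FaithfulSMul (Pol (n + 1)) C.K] (V : Cov C) {N' : ℕ} {S : Sheets (n + 1) N'} {φ : C.Pt}
  (c : Chart φ (n + 1))

theorem jc_eq_jc {x : Fin (n + 1) → ℂ} (hx : x ∈ ball (0 : Fin (n + 1) → ℂ) c.ρ) :
    jc V c x = V.jc c x := jc_eq' V c hx

/-- Change of variables over `M`. -/
theorem cov_B' (hS : V.E.IsSheets S) {B : Set (Fin (n + 1) → ℂ)} (hB : MeasurableSet B)
    (hBB : B ⊆ Bc V c) {G : (Fin (n + 1) → ℂ) × ℂ → ℝ≥0∞} (hG : AEMeasurable G S.μ) :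
    ∫⁻ q in (fun x => V.qq (c.ψ x)) '' B, G q ∂S.μ =
      ∫⁻ x in B, ENNReal.ofReal (‖V.jc c x‖ ^ 2) * G (V.qq (c.ψ x)) := by
  refine (cov_B V c hS hB hBB hG).trans (setLIntegral_congr_fun hB fun x hx => ?_)
  show _ * _ = _ * _
  rw [jc_eq_jc V c (hBB hx).1]
  rfl

/-- **(P1)** Charts of the cone and the finite étale cover. -/
theorem chartM' (hS : V.E.IsSheets S) (hnull : ∀ f : C.R, f ≠ 0 →
    volume {x ∈ ball (0 : Fin (n + 1) → ℂ) c.ρ | c.ψ x f = 0} = 0) :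
    (∀ x ∈ ball (0 : Fin (n + 1) → ℂ) c.ρ, c.ψ x V.h' ≠ 0 → V.jc c x ≠ 0) ∧
      ∀ eps, 0 < eps → eps ≤ c.ρ →
        (∃ (F : Finset C.R) (d : ℝ), 0 < d ∧ ∀ q ∈ S.M, (∀ a ∈ F, ‖V.f a q - φ a‖ < d) →
          ∃ x ∈ ball (0 : Fin (n + 1) → ℂ) eps, V.qq (c.ψ x) = q) ∧
        ∀ G : (Fin (n + 1) → ℂ) × ℂ → ℝ≥0∞, AEMeasurable G S.μ →
          ∫⁻ q in {q | ∃ x ∈ ball (0 : Fin (n + 1) → ℂ) eps, V.qq (c.ψ x) = q}, G q ∂S.μ =
            ∫⁻ x in ball (0 : Fin (n + 1) → ℂ) eps,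
              ENNReal.ofReal (‖V.jc c x‖ ^ 2) * G (V.qq (c.ψ x)) := by
  refine ⟨fun x hx hx' => ?_, fun eps h1 h2 => ⟨chart_nhd V c hS h1, fun G hG => ?_⟩⟩
  · rw [← jc_eq_jc V c hx]
    exact jc_ne_zero V c hS ⟨hx, hx'⟩
  · rw [setLIntegral_congr (ae_eq_image V c hS h2), cov_B V c hS
      (isOpen_ball.inter (isOpen_Bc V c)).measurableSet Set.inter_subset_right hG,
      setLIntegral_congr (ae_eq_ball V c h2 hnull)]
    refine setLIntegral_congr_fun measurableSet_ball fun x hx => ?_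
    show _ * _ = _ * _
    rw [jc_eq_jc V c (ball_subset_ball h2 hx)]
    rfl

end Vale.Agent.P271.H408
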