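import Vale.Agent.P271.H741.Cov
import Vale.Agent.P271.H553.Act

/-! P271 (helper408), (P1) of GLOB-B: analytic charts of the cone and the finite étale cover `M`:
comparison of points and change of variables. -/

open MeasureTheory Filter Topology Metric
open scoped ENNReal NNReal

set_option linter.unusedSectionVars false

namespace Vale.Agent.P271.H408

open Vale.Agent.P282.L2 Vale.Agent.P282.L2.Sheets Vale.Agent.P271.Sch Vale.Agent.P271.H741

section det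

variable {m : ℕ}

/-- The real determinant of a complex linear map. -/
theorem abs_det_restrictScalars (A : (Fin m → ℂ) →L[ℂ] (Fin m → ℂ)) :
    |(A.restrictScalars ℝ).det| = ‖A.det‖ ^ 2 := by
  have h1 : (A.restrictScalars ℝ).det = Complex.normSq A.det := by
    rw [ContinuousLinearMap.det, ContinuousLinearMap.det]
    have h2 : ((A.restrictScalars ℝ : (Fin m → ℂ) →L[ℝ] (Fin m → ℂ)) :
        (Fin m → ℂ) →ₗ[ℝ] (Fin m → ℂ)) = (A : (Fin m → ℂ) →ₗ[ℂ] (Fin m → ℂ)).restrictScalars ℝ := rfl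
    rw [h2, LinearMap.det_restrictScalars, Algebra.norm_complex_apply]
  rw [h1, Complex.normSq_eq_norm_sq, abs_of_nonneg (by positivity)]

end det

variable {n : ℕ} {C : GCone n} [Algebra (Pol (n + 1)) C.K] [IsScalarTower ℂ (Pol (n + 1)) C.K]
  [FaithfulSMul (Pol (n + 1)) C.K] (V : Cov C) {N' : ℕ} {S : Sheets (n + 1) N'} {φ : C.Pt}
  (c : Chart φ (n + 1))

/-- The Noether coordinates in the chart. -/
noncomputable def Zc (x : Fin (n + 1) → ℂ) : Fin (n + 1) → ℂ := fun i => c.ψ x (V.z i)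

/-- The jacobian determinant of the Noether coordinates in the chart. -/
noncomputable def jc (x : Fin (n + 1) → ℂ) : ℂ := (fderiv ℂ (Zc V c) x).det

/-- The point of `M` in the chart. -/
noncomputable def Qc (x : Fin (n + 1) → ℂ) : (Fin (n + 1) → ℂ) × ℂ := V.qq (c.ψ x)

/-- The part of the chart over `M`. -/
def Bc : Set (Fin (n + 1) → ℂ) := {x | x ∈ ball (0 : Fin (n + 1) → ℂ) c.ρ ∧ c.ψ x V.h' ≠ 0}

theorem Qc_fst (x : Fin (n + 1) → ℂ) : (Qc V c x).1 = Zc V c x := rfl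

theorem Qc_snd (x : Fin (n + 1) → ℂ) : (Qc V c x).2 = c.ψ x V.θ := rfl

theorem diff_psi (a : C.R) : DifferentiableOn ℂ (fun x => c.ψ x a) (ball 0 c.ρ) :=
  (c.holo a).differentiableOn

theorem diff_Zc : DifferentiableOn ℂ (Zc V c) (ball 0 c.ρ) :=
  differentiableOn_pi.2 fun i => diff_psi c (V.z i)

theorem continuousOn_Qc : ContinuousOn (Qc V c) (ball 0 c.ρ) :=
  (diff_Zc V c).continuousOn.prodMk (diff_psi c V.θ).continuousOn

theorem isOpen_Bc : IsOpen (Bc V c) := by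
  have : Bc V c = ball 0 c.ρ ∩ (fun x => c.ψ x V.h') ⁻¹' {0}ᶜ := by
    ext x; simp [Bc]
  rw [this]
  exact (diff_psi c V.h').continuousOn.isOpen_inter_preimage isOpen_ball isOpen_compl_singleton

theorem Bc_subset : Bc V c ⊆ ball 0 c.ρ := fun _ hx => hx.1

theorem Qc_mem (hS : V.E.IsSheets S) {x : Fin (n + 1) → ℂ} (hx : x ∈ Bc V c) : Qc V c x ∈ S.M :=
  V.qq_mem hS hx.2

theorem f_Qc (hS : V.E.IsSheets S) {x : Fin (n + 1) → ℂ} (hx : x ∈ Bc V c) (r : C.R) :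
    V.f r (Qc V c x) = c.ψ x r := V.ev_qq hS hx.2 r

theorem f_t_Qc (hS : V.E.IsSheets S) {x : Fin (n + 1) → ℂ} (hx : x ∈ Bc V c)
    (j : Fin (n + 1)) : V.f (c.t j) (Qc V c x) = x j := by
  rw [f_Qc V c hS hx, c.coord x hx.1]

theorem injOn_Qc (hS : V.E.IsSheets S) : Set.InjOn (Qc V c) (Bc V c) := by
  intro x hx y hy h
  ext j
  rw [← f_t_Qc V c hS hx j, h, f_t_Qc V c hS hy j]

/-- Near a point of `Bc` the points `Qc` are on one sheet. -/
theorem exists_sheet_Qc (hS : V.E.IsSheets S) {x : Fin (n + 1) → ℂ} (hx : x ∈ Bc V c) :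
    ∃ W s, S.IsSection W s ∧ Zc V c x ∈ W ∧
      ∀ᶠ y in 𝓝 x, y ∈ Bc V c ∧ Zc V c y ∈ W ∧ (Qc V c y).2 = s (Zc V c y) := by
  obtain ⟨W, s, hs, h1, -, h3⟩ := Avg.exists_sheet (Qc_mem V c hS hx)
  refine ⟨W, s, hs, h1, ?_⟩
  have hc : ContinuousAt (Qc V c) x := (continuousOn_Qc V c).continuousAt
    (isOpen_ball.mem_nhds hx.1)
  filter_upwards [(isOpen_Bc V c).mem_nhds hx, hc.eventually h3] with y hy h4
  exact ⟨hy, h4 (Qc_mem V c hS hy)⟩

/-- The jacobian does not vanish over `M`. -/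
theorem jc_ne_zero (hS : V.E.IsSheets S) {x : Fin (n + 1) → ℂ} (hx : x ∈ Bc V c) :
    jc V c x ≠ 0 := by
  obtain ⟨W, s, hs, hxW, hev⟩ := exists_sheet_Qc V c hS hx
  set T : (Fin (n + 1) → ℂ) → (Fin (n + 1) → ℂ) := fun ζ j => V.f (c.t j) (ζ, s ζ) with hT
  have hTd : DifferentiableOn ℂ T W :=
    differentiableOn_pi.2 fun j => V.f_holo hS (c.t j) W s hs
  have hTa : HasFDerivAt T (fderiv ℂ T (Zc V c x)) (Zc V c x) :=
    (hTd.differentiableAt (hs.isOpen.mem_nhds hxW)).hasFDerivAt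
  have hZa : HasFDerivAt (Zc V c) (fderiv ℂ (Zc V c) x) x :=
    ((diff_Zc V c).differentiableAt (isOpen_ball.mem_nhds hx.1)).hasFDerivAt
  have h1 : HasFDerivAt (T ∘ Zc V c) ((fderiv ℂ T (Zc V c x)).comp (fderiv ℂ (Zc V c) x)) x :=
    hTa.comp x hZa
  have h2 : T ∘ Zc V c =ᶠ[𝓝 x] id := by
    filter_upwards [hev] with y hy
    obtain ⟨hyB, hyW, hys⟩ := hy
    funext j
    simp only [Function.comp, hT, id]
    rw [← hys]
    exact f_t_Qc V c hS hyB j
  have h3 : (fderiv ℂ T (Zc V c x)).comp (fderiv ℂ (Zc V c) x) =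
      ContinuousLinearMap.id ℂ (Fin (n + 1) → ℂ) :=
    (h1.congr_of_eventuallyEq h2.symm).unique (hasFDerivAt_id x)
  have h4 : (fderiv ℂ T (Zc V c x)).det * (fderiv ℂ (Zc V c) x).det = 1 := by
    rw [ContinuousLinearMap.det, ContinuousLinearMap.det, ← LinearMap.det_comp]
    have h5 : ((fderiv ℂ T (Zc V c x) : (Fin (n + 1) → ℂ) →ₗ[ℂ] (Fin (n + 1) → ℂ)) ∘ₗ
        (fderiv ℂ (Zc V c) x : (Fin (n + 1) → ℂ) →ₗ[ℂ] (Fin (n + 1) → ℂ))) =
        LinearMap.id := by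
      apply LinearMap.ext
      intro v
      exact DFunLike.congr_fun h3 v
    rw [h5, LinearMap.det_id]
  intro h0
  rw [jc] at h0
  rw [h0, mul_zero] at h4
  exact zero_ne_one h4

section piece

variable {D : Set (Fin (n + 1) → ℂ)} {W : Set (Fin (n + 1) → ℂ)} {s : (Fin (n + 1) → ℂ) → ℂ}

theorem Qc_eq (x : Fin (n + 1) → ℂ) : Qc V c x = (Zc V c x, (Qc V c x).2) := rfl

theorem measurable_image_Qc (hS : V.E.IsSheets S) (hD : MeasurableSet D) (hDB : D ⊆ Bc V c) :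
    MeasurableSet (Qc V c '' D) :=
  hD.image_of_continuousOn_injOn ((continuousOn_Qc V c).mono (hDB.trans (Bc_subset V c)))
    ((injOn_Qc V c hS).mono hDB)

theorem injOn_Zc (hS : V.E.IsSheets S) (hDB : D ⊆ Bc V c)
    (hDs : ∀ x ∈ D, (Qc V c x).2 = s (Zc V c x)) : Set.InjOn (Zc V c) D := by
  intro x hx y hy h
  refine injOn_Qc V c hS (hDB hx) (hDB hy) ?_
  rw [Qc_eq V c x, Qc_eq V c y, hDs x hx, hDs y hy, h]

open Classical in
theorem piece_sum (hs : S.IsSection W s) (hDW : ∀ x ∈ D, Zc V c x ∈ W)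
    (hDs : ∀ x ∈ D, (Qc V c x).2 = s (Zc V c x)) (G : (Fin (n + 1) → ℂ) × ℂ → ℝ≥0∞)
    (z : Fin (n + 1) → ℂ) :
    ∑ w ∈ S.fib z, (Qc V c '' D).indicator G (z, w) =
      (Zc V c '' D).indicator (fun z => G (z, s z)) z := by
  by_cases hz : z ∈ Zc V c '' D
  · rw [Set.indicator_of_mem hz]
    obtain ⟨x, hx, rfl⟩ := hz
    rw [Finset.sum_eq_single (s (Zc V c x))]
    · rw [Set.indicator_of_mem]
      exact ⟨x, hx, by rw [Qc_eq V c x, hDs x hx]⟩
    · intro w _ hw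
      refine Set.indicator_of_notMem ?_ _
      rintro ⟨y, hy, hyw⟩
      rw [Qc_eq V c y, hDs y hy] at hyw
      have h1 : Zc V c y = Zc V c x := congrArg Prod.fst hyw
      have h2 : s (Zc V c y) = w := congrArg Prod.snd hyw
      exact hw (by rw [← h2, h1])
    · intro h
      exact absurd (hs.mem _ (hDW x hx)) h
  · rw [Set.indicator_of_notMem hz]
    refine Finset.sum_eq_zero fun w _ => Set.indicator_of_notMem ?_ _
    rintro ⟨y, hy, hyw⟩
    exact hz ⟨y, hy, congrArg Prod.fst hyw⟩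

theorem piece_cov (hS : V.E.IsSheets S) (hD : MeasurableSet D) (hDB : D ⊆ Bc V c)
    (hDs : ∀ x ∈ D, (Qc V c x).2 = s (Zc V c x)) (g : (Fin (n + 1) → ℂ) → ℝ≥0∞) :
    ∫⁻ z in Zc V c '' D, g z = ∫⁻ x in D, ENNReal.ofReal (‖jc V c x‖ ^ 2) * g (Zc V c x) := by
  have h1 : ∀ x ∈ D, HasFDerivWithinAt (Zc V c) ((fderiv ℂ (Zc V c) x).restrictScalars ℝ) D x := by
    intro x hx
    exact ((diff_Zc V c).differentiableAt
      (isOpen_ball.mem_nhds (hDB hx).1)).hasFDerivAt.restrictScalars ℝ |>.hasFDerivWithinAt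
  have h2 := lintegral_image_eq_lintegral_abs_det_fderiv_mul volume hD h1
    (injOn_Zc V c hS hDB hDs) g
  rw [h2]
  refine lintegral_congr fun x => ?_
  rw [abs_det_restrictScalars, jc]

/-- Change of variables on one sheet. -/
theorem piece (hS : V.E.IsSheets S) (hD : MeasurableSet D) (hDB : D ⊆ Bc V c)
    (hs : S.IsSection W s) (hDW : ∀ x ∈ D, Zc V c x ∈ W)
    (hDs : ∀ x ∈ D, (Qc V c x).2 = s (Zc V c x)) {G : (Fin (n + 1) → ℂ) × ℂ → ℝ≥0∞}
    (hG : AEMeasurable G S.μ) :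
    ∫⁻ q in Qc V c '' D, G q ∂S.μ =
      ∫⁻ x in D, ENNReal.ofReal (‖jc V c x‖ ^ 2) * G (Qc V c x) := by
  have hA := measurable_image_Qc V c hS hD hDB
  have hZ : MeasurableSet (Zc V c '' D) :=
    hD.image_of_continuousOn_injOn ((diff_Zc V c).continuousOn.mono (hDB.trans (Bc_subset V c)))
      (injOn_Zc V c hS hDB hDs)
  rw [← lintegral_indicator hA, lintegral_μ' (hG.indicator hA)]
  have h1 : (fun z => ∑ w ∈ S.fib z, (Qc V c '' D).indicator G (z, w)) =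
      (Zc V c '' D).indicator (fun z => G (z, s z)) := funext fun z => by
    classical
    exact piece_sum V c hs hDW hDs G z
  rw [h1, lintegral_indicator hZ, Measure.restrict_restrict hZ]
  have h2 : Zc V c '' D ∩ S.V = Zc V c '' D := by
    refine Set.inter_eq_left.2 ?_
    rintro _ ⟨x, hx, rfl⟩
    exact hs.subset (hDW x hx)
  rw [h2, piece_cov V c hS hD hDB hDs]
  refine setLIntegral_congr_fun hD fun x hx => ?_
  show _ * _ = _ * _
  rw [Qc_eq V c x, hDs x hx]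

end piece

section cover

variable {B : Set (Fin (n + 1) → ℂ)}

theorem measurableSet_preimage_Qc (hB : MeasurableSet B) (hBB : B ⊆ ball 0 c.ρ)
    {T : Set ((Fin (n + 1) → ℂ) × ℂ)} (hT : MeasurableSet T) :
    MeasurableSet (B ∩ Qc V c ⁻¹' T) := by
  classical
  have h1 : Measurable (B.piecewise (Qc V c) (fun _ => 0)) :=
    ((continuousOn_Qc V c).mono hBB).measurable_piecewise continuousOn_const hB
  have h2 : B ∩ Qc V c ⁻¹' T = B ∩ (B.piecewise (Qc V c) (fun _ => 0)) ⁻¹' T := by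
    ext x
    constructor
    · rintro ⟨h3, h4⟩
      refine ⟨h3, ?_⟩
      show B.piecewise (Qc V c) (fun _ => 0) x ∈ T
      rw [Set.piecewise_eq_of_mem _ _ _ h3]
      exact h4
    · rintro ⟨h3, h4⟩
      refine ⟨h3, ?_⟩
      have h5 : B.piecewise (Qc V c) (fun _ => 0) x ∈ T := h4
      rw [Set.piecewise_eq_of_mem _ _ _ h3] at h5
      exact h5
  rw [h2]
  exact hB.inter (h1 hT)

/-- A decomposition of a part of the chart into countably many pieces on one sheet each. -/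
theorem exists_pieces (hS : V.E.IsSheets S) (hB : MeasurableSet B) (hBB : B ⊆ Bc V c) :
    ∃ D : ℕ → Set (Fin (n + 1) → ℂ), (∀ i, MeasurableSet (D i)) ∧
      Pairwise (Function.onFun Disjoint D) ∧ ⋃ i, D i = B ∧
      ∀ i, (D i).Nonempty → ∃ W s, S.IsSection W s ∧ (∀ x ∈ D i, Zc V c x ∈ W) ∧
        ∀ x ∈ D i, (Qc V c x).2 = s (Zc V c x) := by
  obtain ⟨ι, hι, W, s, hW, hU⟩ := sm_graphs S
  rcases isEmpty_or_nonempty ι with he | hne
  · refine ⟨fun _ => ∅, fun _ => MeasurableSet.empty, fun _ _ _ => disjoint_bot_left, ?_,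
      fun i hi => absurd hi Set.not_nonempty_empty⟩
    rw [Set.iUnion_empty]
    refine (Set.eq_empty_of_forall_notMem fun x hx => ?_).symm
    have h1 := Qc_mem V c hS (hBB hx)
    rw [← hU, Set.iUnion_of_empty] at h1
    exact h1
  · obtain ⟨g, hg⟩ := exists_surjective_nat ι
    set D' : ℕ → Set (Fin (n + 1) → ℂ) :=
      fun i => B ∩ Qc V c ⁻¹' smGraph (W (g i)) (s (g i)) with hD'
    have hm : ∀ i, MeasurableSet (D' i) := fun i =>
      measurableSet_preimage_Qc V c hB (hBB.trans (Bc_subset V c))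
        (smGraph_meas (hW (g i)).isOpen (hW (g i)).diff.continuousOn)
    refine ⟨disjointed D', fun i => MeasurableSet.disjointed hm i, disjoint_disjointed D', ?_, ?_⟩
    · rw [iUnion_disjointed]
      ext x
      constructor
      · intro hx
        obtain ⟨i, hi⟩ := Set.mem_iUnion.1 hx
        exact hi.1
      · intro hx
        have h1 := Qc_mem V c hS (hBB hx)
        rw [← hU] at h1
        obtain ⟨k, hk⟩ := Set.mem_iUnion.1 h1
        obtain ⟨i, rfl⟩ := hg k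
        exact Set.mem_iUnion.2 ⟨i, hx, hk⟩
    · intro i _
      refine ⟨W (g i), s (g i), hW (g i), fun x hx => ?_, fun x hx => ?_⟩
      · exact (disjointed_subset D' i hx).2.1
      · exact (disjointed_subset D' i hx).2.2

/-- Change of variables over `M`. -/
theorem cov_B (hS : V.E.IsSheets S) (hB : MeasurableSet B) (hBB : B ⊆ Bc V c)
    {G : (Fin (n + 1) → ℂ) × ℂ → ℝ≥0∞} (hG : AEMeasurable G S.μ) :
    ∫⁻ q in Qc V c '' B, G q ∂S.μ =
      ∫⁻ x in B, ENNReal.ofReal (‖jc V c x‖ ^ 2) * G (Qc V c x) := by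
  obtain ⟨D, hDm, hDd, hDU, hD⟩ := exists_pieces V c hS hB hBB
  have hsub : ∀ i, D i ⊆ Bc V c := fun i => (Set.subset_iUnion D i).trans (hDU.le.trans hBB)
  rw [← hDU, Set.image_iUnion, lintegral_iUnion
    (fun i => measurable_image_Qc V c hS (hDm i) (hsub i)), lintegral_iUnion hDm hDd]
  · refine tsum_congr fun i => ?_
    rcases (D i).eq_empty_or_nonempty with h0 | h0
    · rw [h0]; simp
    · obtain ⟨W, s, hs, h1, h2⟩ := hD i h0
      exact piece V c hS (hDm i) (hsub i) hs h1 h2 hG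
  · intro i j hij
    refine Set.disjoint_left.2 ?_
    rintro _ ⟨x, hx, rfl⟩ ⟨y, hy, hxy⟩
    have h1 : y = x := injOn_Qc V c hS (hsub j hy) (hsub i hx) hxy
    exact Set.disjoint_left.1 (hDd hij) hx (h1 ▸ hy)

end cover

section main

variable {ε : ℝ}

theorem h'_ne : V.h' ≠ 0 := by
  intro h0
  have h1 := V.hh
  rw [h0, map_zero] at h1
  exact V.E.h0 ((map_eq_zero_iff _ (FaithfulSMul.algebraMap_injective (Pol (n + 1)) C.K)).1 h1)

/-- The part of `M` in the chart. -/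
theorem ae_eq_image (hS : V.E.IsSheets S) (hε : ε ≤ c.ρ) :
    ({q | ∃ x ∈ ball (0 : Fin (n + 1) → ℂ) ε, V.qq (c.ψ x) = q} : Set _) =ᵐ[S.μ]
      Qc V c '' (ball 0 ε ∩ Bc V c) := by
  rw [Filter.eventuallyEq_set]
  filter_upwards [ae_mem_M (S := S)] with q hq
  constructor
  · rintro ⟨x, hx, rfl⟩
    refine ⟨x, ⟨hx, ball_subset_ball hε hx, ?_⟩, rfl⟩
    rw [← V.h_qq]
    exact Prim.ev_h_ne_zero hS hq
  · rintro ⟨x, hx, rfl⟩
    exact ⟨x, hx.1, rfl⟩

theorem ae_eq_ball (hε : ε ≤ c.ρ) (hnull : ∀ f : C.R, f ≠ 0 →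
    volume {x ∈ ball (0 : Fin (n + 1) → ℂ) c.ρ | c.ψ x f = 0} = 0) :
    ((ball 0 ε ∩ Bc V c : Set (Fin (n + 1) → ℂ))) =ᵐ[volume] ball 0 ε := by
  rw [Filter.eventuallyEq_set]
  have h1 : ∀ᵐ x ∂(volume : Measure (Fin (n + 1) → ℂ)),
      x ∉ {x ∈ ball (0 : Fin (n + 1) → ℂ) c.ρ | c.ψ x V.h' = 0} :=
    measure_eq_zero_iff_ae_notMem.1 (hnull V.h' (h'_ne V))
  filter_upwards [h1] with x hx
  constructor
  · exact fun h => h.1
  · intro h
    exact ⟨h, ball_subset_ball hε h, fun h0 => hx ⟨ball_subset_ball hε h, h0⟩⟩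

/-- Points of `M` near the centre of the chart. -/
theorem chart_nhd (hS : V.E.IsSheets S) (hε : 0 < ε) :
    ∃ (F : Finset C.R) (d : ℝ), 0 < d ∧ ∀ q ∈ S.M, (∀ a ∈ F, ‖V.f a q - φ a‖ < d) →
      ∃ x ∈ ball (0 : Fin (n + 1) → ℂ) ε, V.qq (c.ψ x) = q := by
  classical
  obtain ⟨F, δ, hδ, hF⟩ := c.nhd
  refine ⟨F ∪ Finset.univ.image c.t, min δ ε, lt_min hδ hε, fun q hq hq' => ?_⟩
  obtain ⟨x, hx, hxq⟩ := hF (V.pt hS hq) fun a ha =>
    (hq' a (Finset.mem_union_left _ ha)).trans_le (min_le_left _ _)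
  refine ⟨x, ?_, ?_⟩
  · rw [mem_ball_zero_iff, pi_norm_lt_iff hε]
    intro j
    have h1 := hq' (c.t j) (Finset.mem_union_right _ (Finset.mem_image_of_mem _ (Finset.mem_univ j)))
    have h2 : φ (c.t j) = 0 := by
      have h4 : c.ψ 0 (c.t j) = φ (c.t j) := DFunLike.congr_fun c.zero (c.t j)
      rw [← h4]
      exact c.coord 0 (mem_ball_self c.ρ_pos) j
    have h3 : V.f (c.t j) q = x j := by
      rw [← V.pt_apply hS hq, ← hxq]
      exact c.coord x hx j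
    rw [h2, h3, sub_zero] at h1
    exact h1.trans_le (min_le_right _ _)
  · rw [hxq]
    exact V.qq_pt hS hq

/-- The jacobian is the determinant of the partial derivatives. -/
theorem jc_eq (x : Fin (n + 1) → ℂ) : jc V c x =
    Matrix.det (Matrix.of fun i j => fderiv ℂ (Zc V c) x (Pi.single j 1) i) := by
  rw [jc, ContinuousLinearMap.det, ← LinearMap.det_toMatrix']
  congr 1

theorem jc_eq' {x : Fin (n + 1) → ℂ} (hx : x ∈ ball (0 : Fin (n + 1) → ℂ) c.ρ) : jc V c x =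
    Matrix.det (Matrix.of fun i j => fderiv ℂ (fun y => c.ψ y (V.z i)) x (Pi.single j 1)) := by
  rw [jc_eq]
  congr 1
  ext i j
  have h1 : ∀ i, DifferentiableAt ℂ (fun y => c.ψ y (V.z i)) x := fun i =>
    (diff_psi c (V.z i)).differentiableAt (isOpen_ball.mem_nhds hx)
  have h2 : fderiv ℂ (Zc V c) x =
      ContinuousLinearMap.pi fun i => fderiv ℂ (fun y => c.ψ y (V.z i)) x := fderiv_pi h1
  simp only [Matrix.of_apply, h2, ContinuousLinearMap.pi_apply]

/-- **(P1)** Charts of the cone and the finite étale cover. -/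
theorem chartM (hS : V.E.IsSheets S) (hnull : ∀ f : C.R, f ≠ 0 →
    volume {x ∈ ball (0 : Fin (n + 1) → ℂ) c.ρ | c.ψ x f = 0} = 0) :
    ∃ e0 > 0, e0 ≤ c.ρ ∧
      (∀ x ∈ ball (0 : Fin (n + 1) → ℂ) e0, c.ψ x V.h' ≠ 0 → jc V c x ≠ 0) ∧
      ∀ eps, 0 < eps → eps ≤ e0 →
        (∃ (F : Finset C.R) (d : ℝ), 0 < d ∧ ∀ q ∈ S.M, (∀ a ∈ F, ‖V.f a q - φ a‖ < d) →
          ∃ x ∈ ball (0 : Fin (n + 1) → ℂ) eps, V.qq (c.ψ x) = q) ∧
        ∀ G : (Fin (n + 1) → ℂ) × ℂ → ℝ≥0∞, AEMeasurable G S.μ →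
          ∫⁻ q in {q | ∃ x ∈ ball (0 : Fin (n + 1) → ℂ) eps, V.qq (c.ψ x) = q}, G q ∂S.μ =
            ∫⁻ x in ball (0 : Fin (n + 1) → ℂ) eps,
              ENNReal.ofReal (‖jc V c x‖ ^ 2) * G (V.qq (c.ψ x)) := by
  refine ⟨c.ρ, c.ρ_pos, le_rfl, fun x hx hx' => jc_ne_zero V c hS ⟨hx, hx'⟩,
    fun eps h1 h2 => ⟨chart_nhd V c hS h1, fun G hG => ?_⟩⟩
  rw [setLIntegral_congr (ae_eq_image V c hS h2), cov_B V c hS
    (isOpen_ball.inter (isOpen_Bc V c)).measurableSet Set.inter_subset_right hG,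
    setLIntegral_congr (ae_eq_ball V c h2 hnull)]
  rfl

end main

end Vale.Agent.P271.H408
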