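import Mathlib
import Vale.Agent.P268.Hol
import Vale.Agent.P271.H408.Mean

/-! P271 (helper408): `L²` extension of holomorphic functions over the zero set of a holomorphic
function. -/

open MeasureTheory Filter Topology Metric
open scoped ENNReal NNReal

namespace Vale.Agent.P271.H408

/-- Continuous functions which agree a.e. on an open set agree there. -/
theorem eqOn_of_ae' {E F : Type*} [TopologicalSpace E] [MeasurableSpace E] {μ : Measure E}
    [μ.IsOpenPosMeasure] [TopologicalSpace F] [T2Space F]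
    {f g : E → F} {U : Set E} (hU : IsOpen U)
    (hf : ContinuousOn f U) (hg : ContinuousOn g U) (h : ∀ᵐ z ∂μ, z ∈ U → f z = g z) :
    Set.EqOn f g U := by
  intro x hx
  by_contra hne
  obtain ⟨A, B, hA, hB, hfA, hgB, hAB⟩ := t2_separation hne
  have hO : IsOpen (U ∩ f ⁻¹' A ∩ (U ∩ g ⁻¹' B)) :=
    (hf.isOpen_inter_preimage hU hA).inter (hg.isOpen_inter_preimage hU hB)
  have hpos : 0 < μ (U ∩ f ⁻¹' A ∩ (U ∩ g ⁻¹' B)) :=
    hO.measure_pos μ ⟨x, ⟨hx, hfA⟩, hx, hgB⟩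
  have hzero : μ (U ∩ f ⁻¹' A ∩ (U ∩ g ⁻¹' B)) = 0 := by
    refine measure_mono_null ?_ (ae_iff.1 h)
    rintro y ⟨⟨hyU, hyA⟩, -, hyB⟩ hh
    have := hh hyU
    exact Set.disjoint_left.1 hAB hyA (by
      rw [Set.mem_preimage] at hyB
      rw [Set.mem_preimage, this] at hyA
      rw [this]; exact hyB)
  rw [hzero] at hpos
  exact lt_irrefl _ hpos

section one

/-- Sub mean value inequality on discs. -/
theorem enorm_sq_mul_volume_le_one {f : ℂ → ℂ} {z : ℂ} {r : ℝ}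
    (hf : DifferentiableOn ℂ f (ball z r)) :
    ‖f z‖ₑ ^ 2 * volume (ball z r) ≤ ∫⁻ w in ball z r, ‖f w‖ₑ ^ 2 := by
  have hmp : MeasurePreserving (MeasurableEquiv.funUnique (Fin 1) ℂ) volume volume :=
    volume_preserving_funUnique (Fin 1) ℂ
  have hball : (MeasurableEquiv.funUnique (Fin 1) ℂ) ⁻¹' (ball z r) =
      ball (fun _ : Fin 1 => z) r := by
    ext v
    simp only [Set.mem_preimage, mem_ball, MeasurableEquiv.funUnique_apply]
    rw [dist_eq_norm, dist_eq_norm]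
    have : ‖v - fun _ => z‖ = ‖v default - z‖ := by
      rw [Pi.norm_def]
      simp
    rw [this]
  have h1 : DifferentiableOn ℂ (fun v : Fin 1 → ℂ => f (v default)) (ball (fun _ : Fin 1 => z) r) := by
    refine hf.comp (by fun_prop) ?_
    intro v hv
    rw [← hball] at hv
    exact hv
  have h2 := enorm_sq_mul_volume_le h1
  have h3 : volume (ball (fun _ : Fin 1 => z) r) = volume (ball z r) := by
    rw [← hball, hmp.measure_preimage measurableSet_ball.nullMeasurableSet]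
  have h4 : ∫⁻ w in ball (fun _ : Fin 1 => z) r, ‖f (w default)‖ₑ ^ 2 =
      ∫⁻ w in ball z r, ‖f w‖ₑ ^ 2 := by
    rw [← hball]
    exact hmp.setLIntegral_comp_preimage_emb
      (MeasurableEquiv.measurableEmbedding _) (fun w => ‖f w‖ₑ ^ 2) (ball z r)
  rw [h3] at h2
  rw [← h4]
  exact h2

/-- A point singularity of a square integrable holomorphic function is removable. -/
theorem isLittleO_of_L2 {g : ℂ → ℂ} {c : ℂ} {δ : ℝ} (hδ : 0 < δ)
    (hg : DifferentiableOn ℂ g (ball c δ \ {c}))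
    (hL : ∫⁻ t in ball c δ \ {c}, ‖g t‖ₑ ^ 2 ≠ ⊤) :
    Tendsto (fun t => (t - c) * g t) (𝓝[≠] c) (𝓝 0) := by
  set I : ℝ → ℝ≥0∞ := fun ρ => ∫⁻ t in ball c ρ \ {c}, ‖g t‖ₑ ^ 2 with hI
  -- the integrals over small balls tend to zero
  have hvol : Tendsto (fun ρ : ℝ => (volume.restrict (ball c δ \ {c})) (ball c ρ)) (𝓝[>] 0) (𝓝 0) := by
    refine tendsto_of_tendsto_of_tendsto_of_le_of_le tendsto_const_nhds
      (h := fun ρ : ℝ => volume (ball c ρ)) ?_ (fun _ => zero_le)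
      (fun _ => Measure.restrict_apply_le _ _)
    have h1 : Tendsto (fun ρ : ℝ => volume (ball c ρ)) (𝓝[>] 0) (𝓝 0) := by
      simp only [Complex.volume_ball]
      have h2 : Tendsto (fun ρ : ℝ => ENNReal.ofReal ρ ^ 2 * (NNReal.pi : ℝ≥0∞)) (𝓝 0)
          (𝓝 (ENNReal.ofReal 0 ^ 2 * (NNReal.pi : ℝ≥0∞))) := by
        apply ENNReal.Tendsto.mul_const
        · exact (ENNReal.continuous_pow 2).continuousAt.tendsto.comp
            (ENNReal.continuous_ofReal.continuousAt.tendsto)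
        · right; exact ENNReal.coe_ne_top
      simp only [ENNReal.ofReal_zero, ne_eq, OfNat.ofNat_ne_zero, not_false_eq_true, zero_pow,
        zero_mul] at h2
      exact h2.mono_left nhdsWithin_le_nhds
    exact h1
  have hIt : Tendsto (fun ρ : ℝ => ∫⁻ t in ball c ρ, ‖g t‖ₑ ^ 2 ∂(volume.restrict (ball c δ \ {c})))
      (𝓝[>] 0) (𝓝 0) := tendsto_setLIntegral_zero hL hvol
  have hIle : ∀ ρ : ℝ, ρ ≤ δ → I ρ ≤
      ∫⁻ t in ball c ρ, ‖g t‖ₑ ^ 2 ∂(volume.restrict (ball c δ \ {c})) := by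
    intro ρ hρ
    rw [Measure.restrict_restrict measurableSet_ball, hI]
    apply lintegral_mono_set
    intro t ht
    exact ⟨ht.1, ball_subset_ball hρ ht.1, ht.2⟩
  -- pointwise bound
  have hpt : ∀ t, t ≠ c → 2 * ‖t - c‖ < δ →
      ‖(t - c) * g t‖ₑ ^ 2 * NNReal.pi ≤ 4 * I (2 * ‖t - c‖) := by
    intro t htc ht
    set r : ℝ := ‖t - c‖ / 2 with hr
    have hr0 : 0 < ‖t - c‖ := norm_pos_iff.2 (sub_ne_zero.2 htc)
    have hsub : ball t r ⊆ ball c (2 * ‖t - c‖) \ {c} := by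
      intro w hw
      rw [mem_ball, dist_eq_norm] at hw
      refine ⟨?_, ?_⟩
      · rw [mem_ball, dist_eq_norm]
        calc ‖w - c‖ = ‖(w - t) + (t - c)‖ := by congr 1; ring
          _ ≤ ‖w - t‖ + ‖t - c‖ := norm_add_le _ _
          _ < 2 * ‖t - c‖ := by rw [hr] at hw; linarith
      · intro h
        rw [Set.mem_singleton_iff] at h
        rw [h, norm_sub_rev] at hw
        rw [hr] at hw
        linarith
    have hsub' : ball t r ⊆ ball c δ \ {c} := fun w hw =>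
      ⟨ball_subset_ball ht.le (hsub hw).1, (hsub hw).2⟩
    have h1 := enorm_sq_mul_volume_le_one (hg.mono hsub')
    have h2 : ∫⁻ w in ball t r, ‖g w‖ₑ ^ 2 ≤ I (2 * ‖t - c‖) := lintegral_mono_set hsub
    rw [Complex.volume_ball] at h1
    have h3 : ‖(t - c) * g t‖ₑ ^ 2 * NNReal.pi =
        4 * (‖g t‖ₑ ^ 2 * (ENNReal.ofReal r ^ 2 * NNReal.pi)) := by
      rw [enorm_mul, mul_pow]
      have h4 : ‖t - c‖ₑ ^ 2 = 4 * ENNReal.ofReal r ^ 2 := by
        rw [← ofReal_norm, hr, ← ENNReal.ofReal_pow (by positivity),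
          ← ENNReal.ofReal_pow (by positivity),
          show (4 : ℝ≥0∞) = ENNReal.ofReal 4 by norm_num,
          ← ENNReal.ofReal_mul (by norm_num)]
        congr 1
        ring
      rw [h4]
      ring
    rw [h3]
    gcongr
    exact h1.trans h2
  -- conclusion
  have hlim : Tendsto (fun t => 4 * I (2 * ‖t - c‖) / NNReal.pi) (𝓝[≠] c) (𝓝 0) := by
    have h1 : Tendsto (fun t : ℂ => 2 * ‖t - c‖) (𝓝[≠] c) (𝓝[>] 0) := by
      apply tendsto_nhdsWithin_of_tendsto_nhds_of_eventually_within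
      · have h2 : Tendsto (fun t : ℂ => 2 * ‖t - c‖) (𝓝 c) (𝓝 (2 * ‖c - c‖)) :=
          (Continuous.tendsto (by fun_prop) c)
        rw [sub_self, norm_zero, mul_zero] at h2
        exact h2.mono_left nhdsWithin_le_nhds
      · filter_upwards [self_mem_nhdsWithin] with t ht
        have : 0 < ‖t - c‖ := norm_pos_iff.2 (sub_ne_zero.2 ht)
        exact Set.mem_Ioi.2 (by positivity)
    have h3 : Tendsto (fun ρ : ℝ => I ρ) (𝓝[>] 0) (𝓝 0) := by
      refine tendsto_of_tendsto_of_tendsto_of_le_of_le' tendsto_const_nhds hIt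
        (Eventually.of_forall fun _ => zero_le) ?_
      have : Set.Iio δ ∈ 𝓝[>] (0 : ℝ) := mem_nhdsWithin_of_mem_nhds (Iio_mem_nhds hδ)
      filter_upwards [this] with ρ hρ using hIle ρ (le_of_lt hρ)
    have h4 := (ENNReal.Tendsto.const_mul (a := 4) (h3.comp h1) (Or.inr (by norm_num)))
    have h5 := ENNReal.Tendsto.div_const (b := (NNReal.pi : ℝ≥0∞)) h4 (Or.inr (by
      simp [NNReal.pi_ne_zero]))
    simpa using h5
  have hsq : Tendsto (fun t => ‖(t - c) * g t‖ₑ ^ 2) (𝓝[≠] c) (𝓝 0) := by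
    refine tendsto_of_tendsto_of_tendsto_of_le_of_le' tendsto_const_nhds hlim
      (Eventually.of_forall fun _ => zero_le) ?_
    have h1 : ∀ᶠ t in 𝓝[≠] c, 2 * ‖t - c‖ < δ := by
      apply eventually_nhdsWithin_of_eventually_nhds
      have h2 : ContinuousAt (fun t : ℂ => 2 * ‖t - c‖) c := by fun_prop
      have h3 : (2 * ‖c - c‖) < δ := by simpa using hδ
      exact h2.eventually (gt_mem_nhds h3)
    filter_upwards [h1, self_mem_nhdsWithin] with t h2 h3
    rw [ENNReal.le_div_iff_mul_le (Or.inl (by simp [NNReal.pi_ne_zero]))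
      (Or.inl ENNReal.coe_ne_top)]
    exact hpt t h3 h2
  rw [tendsto_zero_iff_norm_tendsto_zero]
  have h6 : Tendsto (fun t => (‖(t - c) * g t‖ₑ ^ 2).toReal) (𝓝[≠] c) (𝓝 0) := by
    have := (ENNReal.tendsto_toReal (a := 0) (by simp)).comp hsq
    rw [ENNReal.toReal_zero] at this
    exact this
  have h7 : ∀ t, (‖(t - c) * g t‖ₑ ^ 2).toReal = ‖(t - c) * g t‖ ^ 2 := by
    intro t
    rw [ENNReal.toReal_pow, toReal_enorm]
  simp only [h7] at h6
  have h8 := (Real.continuous_sqrt.tendsto 0).comp h6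
  rw [Real.sqrt_zero] at h8
  refine h8.congr fun t => ?_
  simp only [Function.comp]
  rw [Real.sqrt_sq (norm_nonneg _)]

/-- **Removable singularities in `L²`, one variable.** -/
theorem removable_L2_one {g : ℂ → ℂ} {D Z : Set ℂ} (hD : IsOpen D)
    (hZ : ∀ c ∈ D, ∀ᶠ t in 𝓝[≠] c, t ∉ Z)
    (hg : DifferentiableOn ℂ g (D \ Z))
    (hL : ∫⁻ t in D \ Z, ‖g t‖ₑ ^ 2 ≠ ⊤) :
    ∃ G : ℂ → ℂ, DifferentiableOn ℂ G D ∧ Set.EqOn G g (D \ Z) := by
  -- small punctured discs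
  have hpunct : ∀ c ∈ D, ∃ δ > 0, ball c δ \ {c} ⊆ D \ Z := by
    intro c hc
    have h1 : ∀ᶠ t in 𝓝[≠] c, t ∈ D \ Z := by
      filter_upwards [hZ c hc, mem_nhdsWithin_of_mem_nhds (hD.mem_nhds hc)] with t h2 h3
        using ⟨h3, h2⟩
    rw [eventually_nhdsWithin_iff, Metric.eventually_nhds_iff_ball] at h1
    obtain ⟨δ, hδ, h⟩ := h1
    exact ⟨δ, hδ, fun t ht => h t ht.1 ht.2⟩
  have hopen : ∀ t ∈ D \ Z, ∀ᶠ w in 𝓝 t, w ∈ D \ Z := by
    intro t ht
    obtain ⟨δ, hδ, h⟩ := hpunct t ht.1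
    filter_upwards [ball_mem_nhds t hδ] with w hw
    by_cases hwt : w = t
    · rw [hwt]; exact ht
    · exact h ⟨hw, hwt⟩
  have hcont : ∀ t ∈ D \ Z, limUnder (𝓝[≠] t) g = g t := by
    intro t ht
    have h1 : DifferentiableAt ℂ g t := hg.differentiableAt (hopen t ht)
    exact (h1.continuousAt.tendsto.mono_left nhdsWithin_le_nhds).limUnder_eq
  refine ⟨fun t => limUnder (𝓝[≠] t) g, ?_, fun t ht => hcont t ht⟩
  intro c hc
  obtain ⟨δ, hδ, h⟩ := hpunct c hc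
  have h1 : DifferentiableOn ℂ g (ball c δ \ {c}) := hg.mono h
  have h2 := isLittleO_of_L2 hδ h1 (ne_top_of_le_ne_top hL (lintegral_mono_set h))
  have ho : (fun z => g z - g c) =o[𝓝[≠] c] fun z => (z - c)⁻¹ := by
    rw [Asymptotics.isLittleO_iff_tendsto']
    · have h3 : Tendsto (fun t => (t - c) * g t - (t - c) * g c) (𝓝[≠] c) (𝓝 (0 - 0)) := by
        apply h2.sub
        have h4 : Tendsto (fun t : ℂ => (t - c) * g c) (𝓝 c) (𝓝 ((c - c) * g c)) :=
          (Continuous.tendsto (by fun_prop) c)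
        rw [sub_self, zero_mul] at h4
        exact h4.mono_left nhdsWithin_le_nhds
      rw [sub_zero] at h3
      refine h3.congr fun t => ?_
      rw [div_inv_eq_mul]
      ring
    · filter_upwards [self_mem_nhdsWithin] with t ht h0
      exact absurd (inv_eq_zero.1 h0) (sub_ne_zero.2 ht)
  have h3 := Complex.differentiableOn_update_limUnder_of_isLittleO (ball_mem_nhds c hδ) h1 ho
  have h4 : DifferentiableAt ℂ (Function.update g c (limUnder (𝓝[≠] c) g)) c :=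
    h3.differentiableAt (ball_mem_nhds c hδ)
  refine (h4.congr_of_eventuallyEq ?_).differentiableWithinAt
  filter_upwards [ball_mem_nhds c hδ] with t ht
  by_cases htc : t = c
  · rw [htc, Function.update_self]
  · rw [Function.update_of_ne htc]
    exact hcont t (h ⟨ht, htc⟩)

end one

section several

variable {n : ℕ}

/-- A holomorphic function which does not vanish identically near `p` has a small circle, in
some complex direction, on which it has no zeros. -/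
theorem exists_circle {h : (Fin n → ℂ) → ℂ} {p : Fin n → ℂ} {r : ℝ}
    (hh : DifferentiableOn ℂ h (ball p r)) {y : Fin n → ℂ} (hy : y ∈ ball p r) (hne : h y ≠ 0) :
    ∃ (v : Fin n → ℂ) (s : ℝ), 0 < s ∧ ‖s • v‖ < r ∧
      ∀ t : ℂ, ‖t‖ = s → h (p + t • v) ≠ 0 := by
  set v : Fin n → ℂ := y - p with hv
  have hvr : ‖v‖ < r := by rwa [mem_ball, dist_eq_norm] at hy
  have hr0 : 0 < r := (norm_nonneg _).trans_lt hvr
  -- the one variable function
  set R : ℝ := r / (‖v‖ + (r - ‖v‖) / 2) with hR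
  have hden : 0 < ‖v‖ + (r - ‖v‖) / 2 := by
    have := norm_nonneg v
    linarith
  have hR1 : 1 < R := by
    rw [hR, one_lt_div hden]
    linarith
  have hmem : ∀ t ∈ ball (0 : ℂ) R, p + t • v ∈ ball p r := by
    intro t ht
    rw [mem_ball_zero_iff] at ht
    rw [mem_ball, dist_eq_norm, add_sub_cancel_left, norm_smul]
    have h1 : ‖t‖ * (‖v‖ + (r - ‖v‖) / 2) < r := by
      rw [hR, lt_div_iff₀ hden] at ht
      exact ht
    have h2 : ‖t‖ * ‖v‖ ≤ ‖t‖ * (‖v‖ + (r - ‖v‖) / 2) := by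
      apply mul_le_mul_of_nonneg_left _ (norm_nonneg _)
      linarith
    linarith
  have hg : DifferentiableOn ℂ (fun t : ℂ => h (p + t • v)) (ball 0 R) :=
    hh.comp (by fun_prop) hmem
  have hga : AnalyticOnNhd ℂ (fun t : ℂ => h (p + t • v)) (ball 0 R) :=
    hg.analyticOnNhd isOpen_ball
  have h0 : (0 : ℂ) ∈ ball (0 : ℂ) R := mem_ball_self (by linarith)
  have h1 : (1 : ℂ) ∈ ball (0 : ℂ) R := by
    rw [mem_ball_zero_iff]; simpa using hR1
  rcases (hga 0 h0).eventually_eq_zero_or_eventually_ne_zero with h2 | h2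
  · exfalso
    have h3 := hga.eqOn_zero_of_preconnected_of_eventuallyEq_zero
      (convex_ball (0 : ℂ) R).isPreconnected h0 h2 h1
    apply hne
    have h4 : p + (1 : ℂ) • v = y := by rw [one_smul, hv]; abel
    rw [← h4]
    exact h3
  · rw [eventually_nhdsWithin_iff, Metric.eventually_nhds_iff_ball] at h2
    obtain ⟨δ, hδ, h3⟩ := h2
    refine ⟨v, min (δ / 2) 1, by positivity, ?_, ?_⟩
    · rw [norm_smul, Real.norm_eq_abs, abs_of_pos (by positivity)]
      calc min (δ / 2) 1 * ‖v‖ ≤ 1 * ‖v‖ := by gcongr; exact min_le_right _ _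
        _ < r := by rwa [one_mul]
    · intro t ht
      apply h3 t
      · rw [mem_ball_zero_iff, ht]
        exact (min_le_left _ _).trans_lt (by linarith)
      · rw [Set.mem_compl_iff, Set.mem_singleton_iff]
        intro h4
        rw [h4, norm_zero] at ht
        have : (0 : ℝ) < min (δ / 2) 1 := by positivity
        linarith

/-- Cauchy formula across square integrable singularities. -/
theorem ext_point {g k : ℂ → ℂ} {s s' : ℝ} (hs : 0 < s) (hss' : s < s')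
    (hk : DifferentiableOn ℂ k (ball 0 s')) (hk0 : k 0 ≠ 0)
    (hks : ∀ t ∈ sphere (0 : ℂ) s, k t ≠ 0)
    (hg : DifferentiableOn ℂ g (ball (0 : ℂ) s' \ {t | k t = 0}))
    (hL : ∫⁻ t in ball (0 : ℂ) s' \ {t | k t = 0}, ‖g t‖ₑ ^ 2 ≠ ⊤) :
    (2 * Real.pi * Complex.I : ℂ)⁻¹ • (∮ t in C(0, s), t⁻¹ * g t) = g 0 := by
  have hs'0 : 0 < s' := hs.trans hss'
  have h0s : (0 : ℂ) ∈ ball (0 : ℂ) s' := mem_ball_self hs'0
  have han : AnalyticOnNhd ℂ k (ball 0 s') := hk.analyticOnNhd isOpen_ball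
  have hiso : ∀ c ∈ ball (0 : ℂ) s', ∀ᶠ t in 𝓝[≠] c, t ∉ {t | k t = 0} := by
    intro c hc
    rcases (han c hc).eventually_eq_zero_or_eventually_ne_zero with h2 | h2
    · exfalso
      exact hk0 (han.eqOn_zero_of_preconnected_of_eventuallyEq_zero
        (convex_ball (0 : ℂ) s').isPreconnected hc h2 h0s)
    · exact h2
  obtain ⟨G, hGd, hGe⟩ := removable_L2_one isOpen_ball hiso hg hL
  have hclosed : closedBall (0 : ℂ) s ⊆ ball 0 s' := closedBall_subset_ball hss'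
  have hcauchy := (hGd.mono hclosed).circleIntegral_sub_inv_smul (w := 0)
    (mem_ball_self hs)
  have hG0 : G 0 = g 0 := hGe ⟨h0s, hk0⟩
  have hcirc2 : ∮ t in C(0, s), t⁻¹ * g t = ∮ t in C(0, s), (t - 0)⁻¹ • G t := by
    apply circleIntegral.integral_congr hs.le
    intro t ht
    have h2 : t ∈ ball (0 : ℂ) s' \ {t | k t = 0} :=
      ⟨hclosed (sphere_subset_closedBall ht), hks t ht⟩
    simp only [sub_zero, smul_eq_mul]
    rw [hGe h2]
  rw [hcirc2, hcauchy, hG0, smul_smul, inv_mul_cancel₀ Complex.two_pi_I_ne_zero, one_smul]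

/-- The pointwise part of the local extension. -/
theorem ext_ae {h f : (Fin n → ℂ) → ℂ} {p : Fin n → ℂ} {r s s' : ℝ} (hs : 0 < s) (hss' : s < s')
    (hh : DifferentiableOn ℂ h (ball p r))
    (hf : DifferentiableOn ℂ f (ball p r ∩ {z | h z ≠ 0}))
    (hOo : IsOpen (ball p r ∩ {z | h z ≠ 0})) (v : Fin n → ℂ) {z : Fin n → ℂ}
    (hin : ∀ t ∈ ball (0 : ℂ) s', z + t • v ∈ ball p r) (hzh : h z ≠ 0)
    (hcirc : ∀ t ∈ sphere (0 : ℂ) s, h (z + t • v) ≠ 0)
    (hz : ∫⁻ t in ball (0 : ℂ) s', (ball p r ∩ {z | h z ≠ 0}).indicator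
      (fun z => ‖f z‖ₑ ^ 2) (z + t • v) ≠ ⊤) :
    (2 * Real.pi * Complex.I : ℂ)⁻¹ • (∮ t in C(0, s), t⁻¹ * f (z + t • v)) = f z := by
  have hhz : DifferentiableOn ℂ (fun t : ℂ => h (z + t • v)) (ball 0 s') :=
    hh.comp (by fun_prop) hin
  have hDZ : ball (0 : ℂ) s' \ {t | h (z + t • v) = 0} =
      (fun t : ℂ => z + t • v) ⁻¹' (ball p r ∩ {z | h z ≠ 0}) ∩ ball 0 s' := by
    ext t
    constructor
    · rintro ⟨h1, h2⟩
      exact ⟨⟨hin t h1, h2⟩, h1⟩
    · rintro ⟨h1, h2⟩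
      exact ⟨h2, h1.2⟩
  have hopenDZ : IsOpen (ball (0 : ℂ) s' \ {t | h (z + t • v) = 0}) := by
    rw [hDZ]
    exact (hOo.preimage (by fun_prop)).inter isOpen_ball
  have hgd : DifferentiableOn ℂ (fun t : ℂ => f (z + t • v))
      (ball (0 : ℂ) s' \ {t | h (z + t • v) = 0}) := by
    rw [hDZ]
    exact hf.comp (by fun_prop) fun t ht => ht.1
  have hgL : ∫⁻ t in ball (0 : ℂ) s' \ {t | h (z + t • v) = 0}, ‖f (z + t • v)‖ₑ ^ 2 ≠ ⊤ := by
    refine ne_top_of_le_ne_top hz ?_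
    refine le_trans (le_of_eq ?_) (lintegral_mono_set
      (Set.sdiff_subset : ball (0 : ℂ) s' \ {t | h (z + t • v) = 0} ⊆ ball 0 s'))
    apply setLIntegral_congr_fun hopenDZ.measurableSet
    intro t ht
    rw [hDZ] at ht
    have h1 : z + t • v ∈ ball p r ∩ {z | h z ≠ 0} := ht.1
    beta_reduce
    rw [Set.indicator_of_mem h1]
  have h4 := ext_point (g := fun t => f (z + t • v)) (k := fun t => h (z + t • v)) hs hss' hhz
    (by simpa using hzh) hcirc hgd hgL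
  simp only [zero_smul, add_zero] at h4
  exact h4

/-- Geometric data for the local extension. -/
theorem ext_geom {h : (Fin n → ℂ) → ℂ} {p : Fin n → ℂ} {r : ℝ} (hr : 0 < r)
    (hh : DifferentiableOn ℂ h (ball p r)) {y : Fin n → ℂ} (hy : y ∈ ball p r) (hne : h y ≠ 0)
    (hOo : IsOpen (ball p r ∩ {z | h z ≠ 0})) :
    ∃ (v : Fin n → ℂ) (s s' ρ : ℝ) (T : Set ℂ), 0 < s ∧ s < s' ∧ 0 < ρ ∧ ρ ≤ r ∧ IsOpen T ∧
      sphere (0 : ℂ) s ⊆ T ∧ (∀ z ∈ ball p ρ, ∀ t ∈ T, z + t • v ∈ ball p r ∩ {z | h z ≠ 0}) ∧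
      ∀ z ∈ ball p ρ, ∀ t ∈ ball (0 : ℂ) s', z + t • v ∈ ball p r := by
  obtain ⟨v, s, hs, hsr, hcirc⟩ := exists_circle hh hy hne
  rw [norm_smul, Real.norm_eq_abs, abs_of_pos hs] at hsr
  have hΨc : Continuous (fun q : (Fin n → ℂ) × ℂ => q.1 + q.2 • v) := by fun_prop
  have htube : ({p} : Set (Fin n → ℂ)) ×ˢ sphere (0 : ℂ) s ⊆
      (fun q : (Fin n → ℂ) × ℂ => q.1 + q.2 • v) ⁻¹' (ball p r ∩ {z | h z ≠ 0}) := by
    rintro ⟨z, t⟩ ⟨hz, ht⟩
    rw [Set.mem_singleton_iff] at hz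
    rw [mem_sphere_zero_iff_norm] at ht
    subst hz
    refine ⟨?_, hcirc t ht⟩
    rw [mem_ball, dist_eq_norm, add_sub_cancel_left, norm_smul, ht]
    exact hsr
  obtain ⟨A, T, hA, hT, hpA, hsT, hAT⟩ := generalized_tube_lemma isCompact_singleton
    (isCompact_sphere (0 : ℂ) s) (hOo.preimage hΨc) htube
  have hpA' : p ∈ A := hpA rfl
  obtain ⟨ρ₁, hρ₁, hρA⟩ := Metric.isOpen_iff.1 hA p hpA'
  obtain ⟨s', hss', hs'r⟩ : ∃ s' : ℝ, s < s' ∧ s' * ‖v‖ < r := by
    have h1 : ContinuousAt (fun s' : ℝ => s' * ‖v‖) s := by fun_prop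
    have h2 : ∀ᶠ s' in 𝓝[>] s, s' * ‖v‖ < r :=
      (h1.eventually (gt_mem_nhds hsr)).filter_mono nhdsWithin_le_nhds
    obtain ⟨s', h3, h4⟩ := (h2.and self_mem_nhdsWithin).exists
    exact ⟨s', h4, h3⟩
  refine ⟨v, s, s', min (min ρ₁ r) (r - s' * ‖v‖), T, hs, hss',
    lt_min (lt_min hρ₁ hr) (by linarith), (min_le_left _ _).trans (min_le_right _ _), hT, hsT,
    ?_, ?_⟩
  · intro z hz t ht
    have hzA : z ∈ A := hρA (ball_subset_ball ((min_le_left _ _).trans (min_le_left _ _)) hz)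
    have h5 := hAT (Set.mk_mem_prod hzA ht)
    rw [Set.mem_preimage] at h5
    exact h5
  · intro z hz t ht
    rw [mem_ball_zero_iff] at ht
    rw [mem_ball, dist_eq_norm] at hz ⊢
    have h1 : ‖t • v‖ ≤ s' * ‖v‖ := by
      rw [norm_smul]; gcongr
    have h2 : min (min ρ₁ r) (r - s' * ‖v‖) ≤ r - s' * ‖v‖ := min_le_right _ _
    calc ‖z + t • v - p‖ = ‖(z - p) + t • v‖ := by congr 1; abel
      _ ≤ ‖z - p‖ + ‖t • v‖ := norm_add_le _ _
      _ < r := by linarith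

/-- Fubini: almost all discs carry finite integrals. -/
theorem ext_fubini {φ : (Fin n → ℂ) → ℝ≥0∞} (hφ : Measurable φ) (hi : ∫⁻ z, φ z ≠ ⊤)
    (v : Fin n → ℂ) (s' : ℝ) :
    ∀ᵐ z ∂(volume : Measure (Fin n → ℂ)), ∫⁻ t in ball (0 : ℂ) s', φ (z + t • v) < ⊤ := by
  have hΨc : Continuous (fun q : (Fin n → ℂ) × ℂ => q.1 + q.2 • v) := by fun_prop
  have hfub : ∫⁻ z, ∫⁻ t in ball (0 : ℂ) s', φ (z + t • v) ≠ ⊤ := by
    rw [lintegral_lintegral_swap]
    · have h1 : ∀ t : ℂ, ∫⁻ z, φ (z + t • v) = ∫⁻ z, φ z := fun t =>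
        lintegral_add_right_eq_self φ (t • v)
      simp only [h1]
      rw [setLIntegral_const]
      exact ENNReal.mul_ne_top hi measure_ball_lt_top.ne
    · have h1 : Measurable (Function.uncurry fun (z : Fin n → ℂ) (t : ℂ) => φ (z + t • v)) :=
        hφ.comp hΨc.measurable
      exact h1.aemeasurable
  apply ae_lt_top' _ hfub
  apply AEMeasurable.lintegral_prod_right'
    (f := fun q : (Fin n → ℂ) × ℂ => φ (q.1 + q.2 • v))
  exact (hφ.comp hΨc.measurable).aemeasurable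

/-- Local extension. -/
theorem ext_local {h f : (Fin n → ℂ) → ℂ} {p : Fin n → ℂ} {r : ℝ} (hr : 0 < r)
    (hh : DifferentiableOn ℂ h (ball p r)) {y : Fin n → ℂ} (hy : y ∈ ball p r) (hne : h y ≠ 0)
    (hf : DifferentiableOn ℂ f (ball p r ∩ {z | h z ≠ 0}))
    (hL : ∫⁻ z in ball p r ∩ {z | h z ≠ 0}, ‖f z‖ₑ ^ 2 ≠ ⊤) :
    ∃ ρ > 0, ρ ≤ r ∧ ∃ F : (Fin n → ℂ) → ℂ, DifferentiableOn ℂ F (ball p ρ) ∧
      ∀ z ∈ ball p ρ, h z ≠ 0 → F z = f z := by
  have hOo : IsOpen (ball p r ∩ {z | h z ≠ 0}) := by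
    have : ball p r ∩ {z | h z ≠ 0} = ball p r ∩ h ⁻¹' {0}ᶜ := by
      ext z; simp
    rw [this]
    exact hh.continuousOn.isOpen_inter_preimage isOpen_ball isOpen_compl_singleton
  obtain ⟨v, s, s', ρ, T, hs, hss', hρ0, hρr, hT, hsT, hATO, hin⟩ := ext_geom hr hh hy hne hOo
  -- the extension
  have hT' : IsOpen (T \ {0}) := hT.sdiff isClosed_singleton
  have hsT' : sphere (0 : ℂ) s ⊆ T \ {0} := by
    intro t ht
    refine ⟨hsT ht, ?_⟩
    rw [Set.mem_singleton_iff]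
    intro h0
    rw [mem_sphere_zero_iff_norm, h0, norm_zero] at ht
    exact hs.ne ht
  have hFd : DifferentiableOn ℂ (fun z => (2 * Real.pi * Complex.I : ℂ)⁻¹ •
      ∮ t in C(0, s), t⁻¹ * f (z + t • v)) (ball p ρ) := by
    refine (Vale.Agent.P268.differentiableOn_circleIntegral
      (G := fun q : (Fin n → ℂ) × ℂ => q.2⁻¹ * f (q.1 + q.2 • v)) hs.le isOpen_ball hT' hsT'
      ?_).const_smul (2 * Real.pi * Complex.I : ℂ)⁻¹
    apply DifferentiableOn.mul
    · apply DifferentiableOn.inv (by fun_prop)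
      intro q hq
      exact hq.2.2
    · refine hf.comp (by fun_prop) ?_
      rintro ⟨z, t⟩ ⟨hz, ht⟩
      exact hATO z hz t ht.1
  refine ⟨ρ, hρ0, hρr, _, hFd, ?_⟩
  -- Fubini
  have hφm : Measurable ((ball p r ∩ {z | h z ≠ 0}).indicator fun z => ‖f z‖ₑ ^ 2) := by
    classical
    have h2 := ((ENNReal.continuous_pow 2).comp_continuousOn
      hf.continuousOn.enorm).measurable_piecewise
      (g := (0 : (Fin n → ℂ) → ℝ≥0∞)) continuousOn_const hOo.measurableSet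
    rwa [Set.piecewise_eq_indicator] at h2
  have hae := ext_fubini hφm (by rwa [lintegral_indicator hOo.measurableSet]) v s'
  have hsubO : ball p ρ ∩ {z | h z ≠ 0} ⊆ ball p r ∩ {z | h z ≠ 0} :=
    Set.inter_subset_inter_left _ (ball_subset_ball hρr)
  have hO' : IsOpen (ball p ρ ∩ {z | h z ≠ 0}) := by
    have h1 : ball p ρ ∩ {z | h z ≠ 0} = ball p ρ ∩ (ball p r ∩ {z | h z ≠ 0}) := by
      ext z
      constructor
      · intro h1
        exact ⟨h1.1, hsubO h1⟩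
      · rintro ⟨h1, _, h2⟩
        exact ⟨h1, h2⟩
    rw [h1]
    exact isOpen_ball.inter hOo
  have hfin := eqOn_of_ae' (μ := (volume : Measure (Fin n → ℂ))) hO'
    (hFd.continuousOn.mono Set.inter_subset_left) (hf.continuousOn.mono hsubO) (by
      filter_upwards [hae] with z hz hzO
      exact ext_ae hs hss' hh hf hOo v (hin z hzO.1) hzO.2 (fun t ht => (hATO z hzO.1 t (hsT ht)).2)
        hz.ne)
  exact fun z hz hzh => hfin ⟨hz, hzh⟩

/-- **`L²` extension**: `U` open in `ℂⁿ`, `h` holomorphic on `U` and not identically zero near any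
point of `U`, `f` holomorphic on `{h ≠ 0}` and locally square integrable near every point of `U`.
Then `f` extends to a holomorphic function on `U`. -/
theorem ext_L2 {U : Set (Fin n → ℂ)} (hU : IsOpen U) {h f : (Fin n → ℂ) → ℂ}
    (hh : DifferentiableOn ℂ h U) (hne : ∀ p ∈ U, ∃ᶠ z in 𝓝 p, h z ≠ 0)
    (hf : DifferentiableOn ℂ f (U ∩ {z | h z ≠ 0}))
    (hL : ∀ p ∈ U, ∃ r > 0, ∫⁻ z in ball p r ∩ {z | h z ≠ 0}, ‖f z‖ₑ ^ 2 ≠ ⊤) :
    ∃ F : (Fin n → ℂ) → ℂ, DifferentiableOn ℂ F U ∧ ∀ z ∈ U, h z ≠ 0 → F z = f z := by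
  have hloc : ∀ p : U, ∃ (ρ : ℝ) (F : (Fin n → ℂ) → ℂ), 0 < ρ ∧ ball (p : Fin n → ℂ) ρ ⊆ U ∧
      DifferentiableOn ℂ F (ball p ρ) ∧ ∀ z ∈ ball (p : Fin n → ℂ) ρ, h z ≠ 0 → F z = f z := by
    rintro ⟨p, hp⟩
    obtain ⟨r₁, hr₁, hr₁U⟩ := Metric.isOpen_iff.1 hU p hp
    obtain ⟨r₂, hr₂, hr₂L⟩ := hL p hp
    have hr : 0 < min r₁ r₂ := lt_min hr₁ hr₂
    have hsub1 : ball p (min r₁ r₂) ⊆ U := (ball_subset_ball (min_le_left _ _)).trans hr₁U
    obtain ⟨y, hy1, hy2⟩ := ((hne p hp).and_eventually (ball_mem_nhds p hr)).exists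
    obtain ⟨ρ, hρ, hρr, F, hF, hFe⟩ := ext_local hr (hh.mono hsub1) hy2 hy1
      (hf.mono (Set.inter_subset_inter_left _ hsub1))
      (ne_top_of_le_ne_top hr₂L (lintegral_mono_set
        (Set.inter_subset_inter_left _ (ball_subset_ball (min_le_right _ _)))))
    exact ⟨ρ, F, hρ, (ball_subset_ball hρr).trans hsub1, hF, hFe⟩
  choose R F hR hRU hF hFe using hloc
  classical
  let G : (Fin n → ℂ) → ℂ := fun z => if hz : z ∈ U then F ⟨z, hz⟩ z else 0
  -- agreement on overlaps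
  have hagree : ∀ p p' : U, Set.EqOn (F p) (F p') (ball p (R p) ∩ ball p' (R p')) := by
    intro p p' z hz
    by_contra hne'
    have hO : IsOpen (ball (p : Fin n → ℂ) (R p) ∩ ball (p' : Fin n → ℂ) (R p')) :=
      isOpen_ball.inter isOpen_ball
    have h1 : ContinuousAt (F p) z :=
      (hF p).continuousOn.continuousAt (isOpen_ball.mem_nhds hz.1)
    have h2 : ContinuousAt (F p') z :=
      (hF p').continuousOn.continuousAt (isOpen_ball.mem_nhds hz.2)
    have h3 : ∀ᶠ w in 𝓝 z, F p w ≠ F p' w := (h1.ne_iff_eventually_ne h2).1 hne'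
    obtain ⟨w, hw1, hw2, hw3⟩ := ((hne z (hRU p hz.1)).and_eventually
      (h3.and (hO.mem_nhds hz))).exists
    exact hw2 (by rw [hFe p w hw3.1 hw1, hFe p' w hw3.2 hw1])
  have hGe : ∀ p : U, Set.EqOn G (F p) (ball p (R p)) := by
    intro p z hz
    have hzU : z ∈ U := hRU p hz
    have h1 : G z = F ⟨z, hzU⟩ z := by simp only [G, hzU, dif_pos]
    rw [h1]
    exact hagree ⟨z, hzU⟩ p ⟨mem_ball_self (hR ⟨z, hzU⟩), hz⟩
  refine ⟨G, ?_, ?_⟩
  · intro z hz
    have h2 : DifferentiableAt ℂ (F ⟨z, hz⟩) z :=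
      (hF ⟨z, hz⟩).differentiableAt (isOpen_ball.mem_nhds (mem_ball_self (hR ⟨z, hz⟩)))
    refine (h2.congr_of_eventuallyEq ?_).differentiableWithinAt
    filter_upwards [isOpen_ball.mem_nhds (mem_ball_self (hR ⟨z, hz⟩))] with w hw
    exact hGe ⟨z, hz⟩ hw
  · intro z hz hzh
    rw [hGe ⟨z, hz⟩ (mem_ball_self (hR ⟨z, hz⟩)), hFe ⟨z, hz⟩ z (mem_ball_self (hR ⟨z, hz⟩)) hzh]

end several

end Vale.Agent.P271.H408
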