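import Mathlib
import Vale.Agent.P268.Hol
import Vale.Agent.P271.H408.Mean

/-! P271 (helper408): limits of holomorphic functions of several variables, Montel's theorem. -/

open MeasureTheory Filter Topology Metric Uniformity
open scoped ENNReal NNReal

namespace Vale.Agent.P271.H408

section limits

variable {E F : Type*} [NormedAddCommGroup E] [NormedSpace ℂ E]
  [NormedAddCommGroup F] [NormedSpace ℂ F] {ι : Type*} {l : Filter ι}

/-- Derivatives of a uniformly Cauchy family of holomorphic functions are uniformly Cauchy on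
a smaller ball. -/
theorem uniformCauchy_fderiv {f : ι → E → F} {x : E} {r : ℝ} (hr : 0 < r)
    (hf : ∀ i, DifferentiableOn ℂ (f i) (ball x (2 * r)))
    (h : UniformCauchySeqOn f l (ball x (2 * r))) :
    UniformCauchySeqOn (fun i => fderiv ℂ (f i)) l (ball x r) := by
  intro u hu
  obtain ⟨ε, hε, hεu⟩ := Metric.mem_uniformity_dist.1 hu
  have h1 := h {p | dist p.1 p.2 < ε * r / 2} (Metric.dist_mem_uniformity (by positivity))
  filter_upwards [h1] with m hm y hy
  apply hεu
  have hsub : ball y r ⊆ ball x (2 * r) := by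
    intro z hz
    rw [mem_ball] at hy hz ⊢
    calc dist z x ≤ dist z y + dist y x := dist_triangle _ _ _
      _ < 2 * r := by linarith
  have hyx : y ∈ ball x (2 * r) := hsub (mem_ball_self hr)
  have hd1 : DifferentiableAt ℂ (f m.1) y := (hf m.1).differentiableAt (isOpen_ball.mem_nhds hyx)
  have hd2 : DifferentiableAt ℂ (f m.2) y := (hf m.2).differentiableAt (isOpen_ball.mem_nhds hyx)
  rw [dist_eq_norm, ← fderiv_sub hd1 hd2]
  have h2 := Vale.Agent.P268.norm_fderiv_le_of_ball (f := f m.1 - f m.2) (C := ε * r / 2) hr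
    (((hf m.1).mono hsub).sub ((hf m.2).mono hsub)) (by
      intro z hz
      have h3 := hm z (hsub hz)
      simp only [dist_eq_norm] at h3
      exact h3.le)
  calc _ ≤ (ε * r / 2) / r := h2
    _ = ε / 2 := by field_simp
    _ < ε := by linarith

/-- Uniform limits on a ball. -/
theorem tendstoUniformlyOn_fderiv [CompleteSpace F] [l.NeBot] {f : ι → E → F} {g : E → F}
    {x : E} {r : ℝ} (hr : 0 < r)
    (hf : ∀ i, DifferentiableOn ℂ (f i) (ball x (2 * r)))
    (h : TendstoUniformlyOn f g l (ball x (2 * r))) :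
    (∀ y ∈ ball x r, DifferentiableAt ℂ g y) ∧
      TendstoUniformlyOn (fun i => fderiv ℂ (f i)) (fderiv ℂ g) l (ball x r) := by
  have hc := uniformCauchy_fderiv hr hf h.uniformCauchySeqOn
  have hsub : ball x r ⊆ ball x (2 * r) := ball_subset_ball (by linarith)
  -- the pointwise limits of the derivatives
  have h1 : ∀ y, ∃ L : E →L[ℂ] F, y ∈ ball x r → Tendsto (fun i => fderiv ℂ (f i) y) l (𝓝 L) := by
    intro y
    by_cases hy : y ∈ ball x r
    · have h2 : Cauchy (map (fun i => fderiv ℂ (f i) y) l) := hc.cauchy_map hy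
      obtain ⟨L, hL⟩ := cauchy_iff_exists_le_nhds.1 h2
      exact ⟨L, fun _ => hL⟩
    · exact ⟨0, fun h => absurd h hy⟩
  choose g' hg' using h1
  have hu : TendstoUniformlyOn (fun i => fderiv ℂ (f i)) g' l (ball x r) :=
    hc.tendstoUniformlyOn_of_tendsto hg'
  have hd : ∀ y ∈ ball x r, HasFDerivAt g (g' y) y := by
    intro y hy
    refine hasFDerivAt_of_tendstoUniformlyOn (f := f) isOpen_ball hu ?_ ?_ hy
    · intro i z hz
      exact ((hf i).differentiableAt (isOpen_ball.mem_nhds (hsub hz))).hasFDerivAt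
    · intro z hz
      exact h.tendsto_at (hsub hz)
  refine ⟨fun y hy => (hd y hy).differentiableAt, ?_⟩
  exact hu.congr_right fun y hy => (hd y hy).fderiv.symm

omit [NormedSpace ℂ E] [NormedSpace ℂ F] in
theorem exists_ball_unif [ProperSpace E] {f : ι → E → F} {g : E → F} {U : Set E}
    (hU : IsOpen U) (h : TendstoLocallyUniformlyOn f g l U) {x : E} (hx : x ∈ U) :
    ∃ r > 0, ball x (2 * r) ⊆ U ∧ TendstoUniformlyOn f g l (ball x (2 * r)) := by
  obtain ⟨r, hr, hrU⟩ := Metric.isOpen_iff.1 hU x hx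
  have h1 : closedBall x (r / 2) ⊆ U := (closedBall_subset_ball (by linarith)).trans hrU
  have h2 := (tendstoLocallyUniformlyOn_iff_forall_isCompact hU).1 h _ h1
    (isCompact_closedBall x (r / 2))
  have h3 : ball x (2 * (r / 4)) ⊆ closedBall x (r / 2) := by
    refine ball_subset_closedBall.trans (closedBall_subset_closedBall (by linarith))
  exact ⟨r / 4, by positivity, h3.trans h1, h2.mono h3⟩

/-- A locally uniform limit of holomorphic functions on an open set is holomorphic. -/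
theorem holo_of_tendstoLocallyUniformlyOn [FiniteDimensional ℂ E] [CompleteSpace F] [l.NeBot]
    {f : ι → E → F} {g : E → F} {U : Set E}
    (hU : IsOpen U) (hf : ∀ i, DifferentiableOn ℂ (f i) U)
    (h : TendstoLocallyUniformlyOn f g l U) : DifferentiableOn ℂ g U := by
  have : ProperSpace E := FiniteDimensional.proper ℂ E
  intro x hx
  obtain ⟨r, hr, hrU, hunif⟩ := exists_ball_unif hU h hx
  have h1 := (tendstoUniformlyOn_fderiv hr (fun i => (hf i).mono hrU) hunif).1 x
    (mem_ball_self hr)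
  exact h1.differentiableWithinAt

/-- The derivatives converge locally uniformly. -/
theorem tendstoLocallyUniformlyOn_fderiv [FiniteDimensional ℂ E] [CompleteSpace F] [l.NeBot]
    {f : ι → E → F} {g : E → F} {U : Set E}
    (hU : IsOpen U) (hf : ∀ i, DifferentiableOn ℂ (f i) U)
    (h : TendstoLocallyUniformlyOn f g l U) :
    TendstoLocallyUniformlyOn (fun i => fderiv ℂ (f i)) (fderiv ℂ g) l U := by
  have : ProperSpace E := FiniteDimensional.proper ℂ E
  intro u hu x hx
  obtain ⟨r, hr, hrU, hunif⟩ := exists_ball_unif hU h hx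
  have h1 := (tendstoUniformlyOn_fderiv hr (fun i => (hf i).mono hrU) hunif).2 u hu
  exact ⟨ball x r, mem_nhdsWithin_of_mem_nhds (ball_mem_nhds x hr), h1⟩

end limits

section montel

variable {E F : Type*} [NormedAddCommGroup E] [NormedSpace ℂ E] [FiniteDimensional ℂ E]
  [NormedAddCommGroup F] [NormedSpace ℂ F] [FiniteDimensional ℂ F]

/-- **Montel's theorem** for several complex variables: a locally uniformly bounded sequence of
holomorphic functions has a locally uniformly convergent subsequence. -/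
theorem montel {f : ℕ → E → F} {U : Set E} (hU : IsOpen U)
    (hf : ∀ i, DifferentiableOn ℂ (f i) U)
    (hb : ∀ x ∈ U, ∃ r > 0, ∃ C : ℝ, ∀ i, ∀ y ∈ ball x r, ‖f i y‖ ≤ C) :
    ∃ (φ : ℕ → ℕ) (g : E → F), StrictMono φ ∧ DifferentiableOn ℂ g U ∧
      TendstoLocallyUniformlyOn (fun i => f (φ i)) g atTop U := by
  have : ProperSpace E := FiniteDimensional.proper ℂ E
  have : ProperSpace F := FiniteDimensional.proper ℂ F
  have : CompleteSpace F := FiniteDimensional.complete ℂ F
  -- a countable dense subset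
  obtain ⟨D, hDU, hDc, hDd⟩ :=
    (TopologicalSpace.IsSeparable.of_separableSpace U).exists_countable_dense_subset
  have : Countable D := hDc.to_subtype
  -- a subsequence converging on `D`
  have hbD : ∀ d : D, ∃ C : ℝ, ∀ i, f i d ∈ closedBall (0 : F) C := by
    intro d
    obtain ⟨r, hr, C, hC⟩ := hb d (hDU d.2)
    exact ⟨C, fun i => by
      rw [mem_closedBall_zero_iff]
      exact hC i d (mem_ball_self hr)⟩
  choose CD hCD using hbD
  have hK : IsCompact (Set.pi Set.univ fun d : D => closedBall (0 : F) (CD d)) :=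
    isCompact_univ_pi fun d => isCompact_closedBall _ _
  obtain ⟨a, -, φ, hφ, hlim⟩ := hK.tendsto_subseq (x := fun i => fun d : D => f i d)
    (fun i d _ => hCD d i)
  have hlimD : ∀ d : D, Tendsto (fun i => f (φ i) d) atTop (𝓝 (a d)) := by
    intro d
    exact (tendsto_pi_nhds.1 hlim) d
  -- uniform Cauchy on small balls
  have hcau : ∀ x ∈ U, ∃ s > 0, UniformCauchySeqOn (fun i => f (φ i)) atTop (ball x s) := by
    intro x hx
    obtain ⟨r, hr, C, hC⟩ := hb x hx
    obtain ⟨r', hr', hrU'⟩ := Metric.isOpen_iff.1 hU x hx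
    obtain ⟨ρ, hρ, hρ1, hρ2⟩ : ∃ ρ : ℝ, 0 < ρ ∧ 4 * ρ ≤ r ∧ 4 * ρ ≤ r' :=
      ⟨min r r' / 4, by positivity, by linarith [min_le_left r r'], by linarith [min_le_right r r']⟩
    have hballU : ball x (4 * ρ) ⊆ U := (ball_subset_ball hρ2).trans hrU'
    have hballC : ∀ i, ∀ y ∈ ball x (4 * ρ), ‖f i y‖ ≤ C := fun i y hy =>
      hC i y (ball_subset_ball hρ1 hy)
    have hC0 : 0 ≤ C := (norm_nonneg _).trans (hballC 0 x (mem_ball_self (by positivity)))
    set L : ℝ := C / (2 * ρ) with hL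
    have hL0 : 0 ≤ L := by positivity
    have hlip : ∀ i, ∀ y ∈ ball x (2 * ρ), ∀ y' ∈ ball x (2 * ρ),
        ‖f i y' - f i y‖ ≤ L * ‖y' - y‖ := by
      intro i y hy y' hy'
      let _ : NormedSpace ℝ E := NormedSpace.restrictScalars ℝ ℂ E
      refine (convex_ball x (2 * ρ)).norm_image_sub_le_of_norm_fderiv_le (𝕜 := ℂ) ?_ ?_ hy hy'
      · intro w hw
        exact (hf i).differentiableAt (hU.mem_nhds (hballU (ball_subset_ball (by linarith) hw)))
      · intro w hw
        have hsub : ball w (2 * ρ) ⊆ ball x (4 * ρ) := by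
          intro v hv
          rw [mem_ball] at hw hv ⊢
          calc dist v x ≤ dist v w + dist w x := dist_triangle _ _ _
            _ < 4 * ρ := by linarith
        exact Vale.Agent.P268.norm_fderiv_le_of_ball (by positivity)
          ((hf i).mono (hsub.trans hballU)) fun v hv => hballC i v (hsub hv)
    refine ⟨ρ, hρ, ?_⟩
    intro u hu
    obtain ⟨ε, hε, hεu⟩ := Metric.mem_uniformity_dist.1 hu
    obtain ⟨δ, hδ, hδρ, hδL⟩ : ∃ δ : ℝ, 0 < δ ∧ δ ≤ ρ ∧ L * δ < ε / 3 := by
      refine ⟨min ρ (ε / (3 * (L + 1))), by positivity, min_le_left _ _, ?_⟩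
      calc L * min ρ (ε / (3 * (L + 1))) ≤ L * (ε / (3 * (L + 1))) := by
            gcongr; exact min_le_right _ _
        _ < (L + 1) * (ε / (3 * (L + 1))) := by
            have : 0 < ε / (3 * (L + 1)) := by positivity
            nlinarith
        _ = ε / 3 := by field_simp
    -- finite net
    obtain ⟨t, ht⟩ := (isCompact_closedBall x ρ).elim_finite_subcover
      (fun d : D => ball (d : E) δ) (fun _ => isOpen_ball) (by
        intro y hy
        have hyU : y ∈ U := hballU (closedBall_subset_ball (by linarith) hy)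
        obtain ⟨d, hd, hdy⟩ := Metric.mem_closure_iff.1 (hDd hyU) δ hδ
        exact Set.mem_iUnion.2 ⟨⟨d, hd⟩, hdy⟩)
    have hev : ∀ᶠ m : ℕ × ℕ in atTop ×ˢ atTop, ∀ d ∈ t,
        dist (f (φ m.1) d) (f (φ m.2) d) < ε / 3 := by
      rw [Filter.eventually_all_finset]
      intro d _
      have h1 : Cauchy (map (fun i => f (φ i) d) atTop) := (hlimD d).cauchy_map
      have h2 := (cauchy_map_iff.1 h1).2
      have h3 := h2 (Metric.dist_mem_uniformity (show 0 < ε / 3 by positivity))
      exact h3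
    filter_upwards [hev] with m hm y hy
    apply hεu
    obtain ⟨d, hd⟩ := Set.mem_iUnion.1 (ht (ball_subset_closedBall hy))
    obtain ⟨hdt, hdy⟩ := Set.mem_iUnion.1 hd
    rw [mem_ball] at hdy
    have hy2 : y ∈ ball x (2 * ρ) := ball_subset_ball (by linarith) hy
    have hd2 : (d : E) ∈ ball x (2 * ρ) := by
      rw [mem_ball] at hy ⊢
      calc dist (d : E) x ≤ dist (d : E) y + dist y x := dist_triangle _ _ _
        _ < 2 * ρ := by rw [dist_comm (d : E) y]; linarith
    have hA : ∀ i, dist (f i y) (f i d) < ε / 3 := by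
      intro i
      rw [dist_eq_norm]
      refine (hlip i d hd2 y hy2).trans_lt (lt_of_le_of_lt ?_ hδL)
      gcongr
      rw [← dist_eq_norm]
      exact hdy.le
    calc dist (f (φ m.1) y) (f (φ m.2) y)
        ≤ dist (f (φ m.1) y) (f (φ m.1) d) + dist (f (φ m.1) d) (f (φ m.2) d) +
          dist (f (φ m.2) d) (f (φ m.2) y) := dist_triangle4 _ _ _ _
      _ < ε / 3 + ε / 3 + ε / 3 := by
          have h1 := hA (φ m.1)
          have h2 := hA (φ m.2)
          rw [dist_comm] at h2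
          have h3 := hm d hdt
          linarith
      _ = ε := by ring
  -- the limit
  have hg : ∀ x, ∃ g : F, x ∈ U → Tendsto (fun i => f (φ i) x) atTop (𝓝 g) := by
    intro x
    by_cases hx : x ∈ U
    · obtain ⟨s, hs, hc⟩ := hcau x hx
      obtain ⟨g, hg⟩ := cauchy_iff_exists_le_nhds.1 (hc.cauchy_map (mem_ball_self hs))
      exact ⟨g, fun _ => hg⟩
    · exact ⟨0, fun h => absurd h hx⟩
  choose g hg using hg
  have hlu : TendstoLocallyUniformlyOn (fun i => f (φ i)) g atTop U := by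
    intro u hu x hx
    obtain ⟨s, hs, hc⟩ := hcau x hx
    have hc' : UniformCauchySeqOn (fun i => f (φ i)) atTop (ball x s ∩ U) :=
      hc.mono Set.inter_subset_left
    have h1 := hc'.tendstoUniformlyOn_of_tendsto (f := g) (fun y hy => hg y hy.2) u hu
    exact ⟨ball x s ∩ U, Filter.inter_mem (mem_nhdsWithin_of_mem_nhds (ball_mem_nhds x hs))
      self_mem_nhdsWithin, h1⟩
  exact ⟨φ, g, hφ, holo_of_tendstoLocallyUniformlyOn hU (fun i => hf (φ i)) hlu, hlu⟩

end montel

section L2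

variable {n : ℕ}

/-- A sequence of holomorphic functions which is bounded in `L²_loc` is locally uniformly
bounded. -/
theorem locally_bounded_of_L2 {ι : Type*} {f : ι → (Fin n → ℂ) → ℂ} {U : Set (Fin n → ℂ)}
    (hU : IsOpen U)
    (hf : ∀ i, DifferentiableOn ℂ (f i) U)
    (hb : ∀ K : Set (Fin n → ℂ), IsCompact K → K ⊆ U → ∃ C : ℝ≥0∞, C ≠ ⊤ ∧
      ∀ i, ∫⁻ z in K, ‖f i z‖ₑ ^ 2 ≤ C) {x : Fin n → ℂ} (hx : x ∈ U) :
    ∃ r > 0, ∃ C : ℝ, ∀ i, ∀ y ∈ ball x r, ‖f i y‖ ≤ C := by
  obtain ⟨r, hr, hrU⟩ := Metric.isOpen_iff.1 hU x hx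
  have hρ : 0 < r / 4 := by positivity
  set ρ := r / 4 with hρdef
  have hK : closedBall x (2 * ρ) ⊆ U := (closedBall_subset_ball (by linarith)).trans hrU
  obtain ⟨C, hC, hCb⟩ := hb _ (isCompact_closedBall x (2 * ρ)) hK
  have hv0 : volume (ball (0 : Fin n → ℂ) ρ) ≠ 0 := (isOpen_ball.measure_pos _
    ⟨0, mem_ball_self hρ⟩).ne'
  have hvt : volume (ball (0 : Fin n → ℂ) ρ) ≠ ⊤ := measure_ball_lt_top.ne
  set M : ℝ≥0∞ := C / volume (ball (0 : Fin n → ℂ) ρ) with hM
  have hMt : M ≠ ⊤ := ENNReal.div_ne_top hC hv0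
  refine ⟨ρ, hρ, M.toReal + 1, fun i y hy => ?_⟩
  have hsub : ball y ρ ⊆ closedBall x (2 * ρ) := by
    intro z hz
    rw [mem_ball] at hy hz
    rw [mem_closedBall]
    calc dist z x ≤ dist z y + dist y x := dist_triangle _ _ _
      _ ≤ 2 * ρ := by linarith
  have h1 := enorm_sq_mul_volume_le ((hf i).mono (hsub.trans hK))
  have h2 : ‖f i y‖ₑ ^ 2 * volume (ball (0 : Fin n → ℂ) ρ) ≤ C := by
    rw [← Measure.addHaar_ball_center volume y ρ]
    exact h1.trans ((lintegral_mono_set hsub).trans (hCb i))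
  have h3 : ‖f i y‖ₑ ^ 2 ≤ M := by
    rw [hM, ENNReal.le_div_iff_mul_le (Or.inl hv0) (Or.inl hvt)]
    exact h2
  have h4 : ‖f i y‖ ^ 2 ≤ M.toReal := by
    rw [← ofReal_norm, ← ENNReal.ofReal_pow (norm_nonneg _)] at h3
    exact (ENNReal.ofReal_le_iff_le_toReal hMt).1 h3
  nlinarith [sq_nonneg (‖f i y‖ - 1), norm_nonneg (f i y)]

/-- **Montel's theorem in `L²_loc`.** -/
theorem montel_L2 {f : ℕ → (Fin n → ℂ) → ℂ} {U : Set (Fin n → ℂ)} (hU : IsOpen U)
    (hf : ∀ i, DifferentiableOn ℂ (f i) U)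
    (hb : ∀ K : Set (Fin n → ℂ), IsCompact K → K ⊆ U → ∃ C : ℝ≥0∞, C ≠ ⊤ ∧
      ∀ i, ∫⁻ z in K, ‖f i z‖ₑ ^ 2 ≤ C) :
    ∃ (φ : ℕ → ℕ) (g : (Fin n → ℂ) → ℂ), StrictMono φ ∧ DifferentiableOn ℂ g U ∧
      TendstoLocallyUniformlyOn (fun i => f (φ i)) g atTop U :=
  montel hU hf fun _ hx => locally_bounded_of_L2 hU hf hb hx

/-- Fatou's lemma for pointwise convergent sequences. -/
theorem lintegral_le_of_tendsto {α : Type*} [MeasurableSpace α] {μ : Measure α}
    {f : ℕ → α → ℝ≥0∞} {g : α → ℝ≥0∞} {C : ℝ≥0∞}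
    (hf : ∀ i, AEMeasurable (f i) μ) (hlim : ∀ᵐ x ∂μ, Tendsto (fun i => f i x) atTop (𝓝 (g x)))
    (hC : ∀ i, ∫⁻ x, f i x ∂μ ≤ C) : ∫⁻ x, g x ∂μ ≤ C := by
  calc ∫⁻ x, g x ∂μ = ∫⁻ x, liminf (fun i => f i x) atTop ∂μ := by
        apply lintegral_congr_ae
        filter_upwards [hlim] with x hx using hx.liminf_eq.symm
    _ ≤ liminf (fun i => ∫⁻ x, f i x ∂μ) atTop := lintegral_liminf_le' hf
    _ ≤ C := by
        refine liminf_le_of_le (by isBoundedDefault) ?_
        intro b hb
        obtain ⟨i, hi⟩ := hb.exists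
        exact hi.trans (hC i)

/-- Weak compactness of bounded sets of weighted Bergman spaces with varying weights: if `f i`
is holomorphic on `U`, `∫_U |f i|² w i ≤ C`, the weights `w i` are locally uniformly bounded
below by positive constants and converge pointwise to `w`, then a subsequence converges locally
uniformly to a holomorphic `g` with `∫_U |g|² w ≤ C`. -/
theorem bergman_compact {f : ℕ → (Fin n → ℂ) → ℂ} {U : Set (Fin n → ℂ)} (hU : IsOpen U)
    (hf : ∀ i, DifferentiableOn ℂ (f i) U) {w : ℕ → (Fin n → ℂ) → ℝ≥0∞} {w' : (Fin n → ℂ) → ℝ≥0∞}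
    (hwm : ∀ i, AEMeasurable (w i) (volume.restrict U))
    (hw' : ∀ᵐ z ∂(volume.restrict U), Tendsto (fun i => w i z) atTop (𝓝 (w' z)) ∧ w' z ≠ ⊤)
    (hlow : ∀ K : Set (Fin n → ℂ), IsCompact K → K ⊆ U → ∃ c : ℝ≥0∞, c ≠ 0 ∧
      ∀ i, ∀ z ∈ K, c ≤ w i z) {C : ℝ≥0∞} (hCt : C ≠ ⊤)
    (hC : ∀ i, ∫⁻ z in U, ‖f i z‖ₑ ^ 2 * w i z ≤ C) :
    ∃ (φ : ℕ → ℕ) (g : (Fin n → ℂ) → ℂ), StrictMono φ ∧ DifferentiableOn ℂ g U ∧
      TendstoLocallyUniformlyOn (fun i => f (φ i)) g atTop U ∧
      ∫⁻ z in U, ‖g z‖ₑ ^ 2 * w' z ≤ C := by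
  obtain ⟨φ, g, hφ, hg, hlu⟩ := montel_L2 hU hf (by
    intro K hK hKU
    obtain ⟨c, hc0, hc⟩ := hlow K hK hKU
    refine ⟨C / c, ENNReal.div_ne_top hCt hc0, fun i => ?_⟩
    by_cases hct : c = ⊤
    · -- the weight is infinite on `K`
      have h0 : ∫⁻ z in K, ‖f i z‖ₑ ^ 2 * ⊤ ≤ C := by
        refine le_trans ?_ (hC i)
        refine le_trans ?_ (lintegral_mono_set hKU)
        apply setLIntegral_mono' hK.measurableSet
        intro z hz
        gcongr
        rw [← hct]
        exact hc i z hz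
      have h1 : ∀ᵐ z ∂(volume.restrict K), ‖f i z‖ₑ ^ 2 * ⊤ < ⊤ := by
        refine ae_lt_top' ?_ (h0.trans_lt (lt_top_iff_ne_top.2 hCt)).ne
        exact (((hf i).continuousOn.mono hKU).aemeasurable hK.measurableSet).enorm.pow_const 2
          |>.mul_const _
      have h2 : ∫⁻ z in K, ‖f i z‖ₑ ^ 2 = 0 := by
        rw [lintegral_eq_zero_iff' ((((hf i).continuousOn.mono hKU).aemeasurable
          hK.measurableSet).enorm.pow_const 2)]
        filter_upwards [h1] with z hz
        by_contra hne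
        rw [ENNReal.mul_top hne] at hz
        exact lt_irrefl _ hz
      rw [h2]
      exact zero_le
    · rw [ENNReal.le_div_iff_mul_le (Or.inl hc0) (Or.inl hct)]
      refine le_trans ?_ (hC i)
      rw [← lintegral_mul_const' _ _ hct]
      refine le_trans ?_ (lintegral_mono_set hKU)
      apply setLIntegral_mono' hK.measurableSet
      intro z hz
      gcongr
      exact hc i z hz)
  refine ⟨φ, g, hφ, hg, hlu, ?_⟩
  apply lintegral_le_of_tendsto (f := fun i z => ‖f (φ i) z‖ₑ ^ 2 * w (φ i) z)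
  · intro i
    exact (((hf (φ i)).continuousOn.aemeasurable hU.measurableSet).enorm.pow_const 2).mul
      (hwm (φ i))
  · rw [ae_restrict_iff' hU.measurableSet] at hw' ⊢
    filter_upwards [hw'] with z hz hzU
    obtain ⟨h1, h2⟩ := hz hzU
    have h3 : Tendsto (fun i => ‖f (φ i) z‖ₑ ^ 2) atTop (𝓝 (‖g z‖ₑ ^ 2)) :=
      (ENNReal.continuous_pow 2).continuousAt.tendsto.comp
        (continuous_enorm.continuousAt.tendsto.comp (hlu.tendsto_at hzU))
    exact ENNReal.Tendsto.mul h3 (Or.inr h2) (h1.comp hφ.tendsto_atTop) (Or.inr (by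
      exact ENNReal.pow_ne_top enorm_ne_top))
  · intro i
    exact hC (φ i)

end L2

end Vale.Agent.P271.H408
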