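import Vale.Agent.P271.H408.NonIntA
import Vale.Agent.P271.Inst.ChartL

/-! P271 (helper408): nonintegrability of the weight with the family `t_j` added. -/

open MeasureTheory Filter Topology Metric
open scoped ENNReal NNReal

namespace Vale.Agent.P271.H408

open Vale.Agent.P271.Sch Vale.Agent.P271.H741

variable {n : ℕ} {C : GCone n} {φ : C.Pt}

/-- A weight is bounded below near every point. -/
theorem val_lower (w : RWeight C) (c : Chart φ (n + 1)) :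
    ∃ c0 : ℝ≥0∞, c0 ≠ 0 ∧ ∀ᶠ x in 𝓝 (0 : Fin (n + 1) → ℂ), c0 ≤ w.val (c.ψ x) := by
  have h1 : ∀ a : Fin w.r, ∃ B : ℝ, ∀ᶠ x in 𝓝 (0 : Fin (n + 1) → ℂ),
      ∑ j, ‖c.ψ x (w.g a j)‖ ^ 2 ≤ B := by
    intro a
    have h2 : ContinuousAt (fun x => ∑ j, ‖c.ψ x (w.g a j)‖ ^ 2) (0 : Fin (n + 1) → ℂ) :=
      tendsto_finsetSum _ fun j _ =>
        ((c.holo (w.g a j) 0 (mem_ball_self c.ρ_pos)).continuousAt.norm.pow 2)
    refine ⟨∑ j, ‖c.ψ 0 (w.g a j)‖ ^ 2 + 1, ?_⟩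
    filter_upwards [h2.eventually (gt_mem_nhds (lt_add_one _))] with x hx
    exact le_of_lt hx
  choose B hB using h1
  refine ⟨∏ a, (ENNReal.ofReal (B a)) ^ (-w.κ a), ?_, ?_⟩
  · refine Finset.prod_ne_zero_iff.2 fun a _ => ?_
    rw [ENNReal.rpow_neg]
    exact ENNReal.inv_ne_zero.2 (ENNReal.rpow_ne_top_of_nonneg (w.nonneg a) ENNReal.ofReal_ne_top)
  · filter_upwards [eventually_all.2 hB] with x hx
    exact Finset.prod_le_prod' fun a _ =>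
      rpow_neg_anti (ENNReal.ofReal_le_ofReal (hx a)) (w.nonneg a)

/-- **Nonintegrability.** -/
theorem not_intAt (w : RWeight C) {r : ℕ} (t : Fin r → C.R) (h0 : ∀ j, φ (t j) = 0)
    (κ : ℝ) (hκ : (n : ℝ) + 1 ≤ κ) :
    ¬ IntAt (n + 1) φ
      (fun χ => (ENNReal.ofReal (∑ j, ‖χ (t j)‖ ^ 2)) ^ (-κ) * w.val χ) := by
  rintro ⟨c, ε, hε, hερ, hI⟩
  have hu : ∀ j, ContDiffAt ℂ 1 (fun x => c.ψ x (t j)) (0 : Fin (n + 1) → ℂ) := fun j =>
    (c.holo (t j) 0 (mem_ball_self c.ρ_pos)).contDiffAt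
  have hL : ∀ j, ∃ K : ℝ, ∀ᶠ x in 𝓝 (0 : Fin (n + 1) → ℂ), ‖c.ψ x (t j)‖ ^ 2 ≤ K * ‖x‖ ^ 2 := by
    intro j
    obtain ⟨K, s, hs, hK⟩ := (hu j).exists_lipschitzOnWith
    refine ⟨(K : ℝ) ^ 2, ?_⟩
    filter_upwards [hs] with x hx
    have h2 := hK.dist_le_mul x hx 0 (mem_of_mem_nhds hs)
    have h3 : c.ψ 0 (t j) = 0 := by
      rw [← h0 j]
      exact DFunLike.congr_fun c.zero (t j)
    rw [h3, dist_zero_right, dist_zero_right] at h2
    rw [← mul_pow]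
    gcongr
  choose K hK using hL
  obtain ⟨c0, hc0, hw⟩ := val_lower w c
  set K' : ℝ := ∑ j, |K j| + 1 with hK'
  have hK0 : 0 < K' := by positivity
  obtain ⟨e', he', hsub⟩ := Metric.eventually_nhds_iff_ball.1 ((eventually_all.2 hK).and hw)
  set e := min e' ε with he
  have he0 : 0 < e := lt_min he' hε
  have hn : 0 < n + 1 := Nat.succ_pos n
  have h5 := lintegral_sing_ball' hn (0 : Fin (n + 1) → ℂ) he0 hK0 (κ := κ) (by push_cast; exact hκ)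
  have h6 : c0 * ∫⁻ x in ball (0 : Fin (n + 1) → ℂ) e,
      (ENNReal.ofReal (K' * ‖x - 0‖ ^ 2)) ^ (-κ) ≤
      ∫⁻ x in ball (0 : Fin (n + 1) → ℂ) ε,
        (ENNReal.ofReal (∑ j, ‖c.ψ x (t j)‖ ^ 2)) ^ (-κ) * w.val (c.ψ x) := by
    refine (lintegral_const_mul_le _ _).trans ?_
    refine le_trans (setLIntegral_mono' measurableSet_ball fun x hx => ?_)
      (lintegral_mono_set (ball_subset_ball (min_le_right e' ε)))
    obtain ⟨h7, h8⟩ := hsub x (ball_subset_ball (min_le_left _ _) hx)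
    rw [mul_comm c0]
    refine mul_le_mul' ?_ h8
    refine rpow_neg_anti (ENNReal.ofReal_le_ofReal ?_) (by
      have : (0 : ℝ) ≤ n := Nat.cast_nonneg n
      linarith)
    rw [sub_zero]
    calc ∑ j, ‖c.ψ x (t j)‖ ^ 2 ≤ ∑ j, K j * ‖x‖ ^ 2 := Finset.sum_le_sum fun j _ => h7 j
      _ = (∑ j, K j) * ‖x‖ ^ 2 := by rw [Finset.sum_mul]
      _ ≤ K' * ‖x‖ ^ 2 := by
          have h9 : ∑ j, K j ≤ ∑ j, |K j| := Finset.sum_le_sum fun j _ => le_abs_self _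
          rw [hK']
          gcongr
          linarith
  rw [h5, ENNReal.mul_top hc0] at h6
  exact absurd hI (not_lt.2 h6)

/-- The same with the signature asked by helper987. -/
theorem not_intAt_orbit {n : ℕ} (_hn : 1 ≤ n) {C : GCone n} {φ : C.Pt} (_hφ : GCone.NV φ)
    (w : RWeight C) {r : ℕ} (t : Fin r → C.R) (m1 : ℕ) (_ht : ∀ j, t j ∈ C.A m1)
    (h0 : ∀ j, φ (t j) = 0) (κ : ℝ) (hκ : (n : ℝ) + 1 ≤ κ) :
    ¬ IntAt (n + 1) φ
      (fun χ => (ENNReal.ofReal (∑ j, ‖χ (t j)‖ ^ 2)) ^ (-κ) * w.val χ) :=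
  not_intAt w t h0 κ hκ

end Vale.Agent.P271.H408
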