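import Mathlib

/-! P271 (helper408): nonintegrability of `(∑ |t_j|²)^{-n}` on `ℂ^{n+1}` near a curve of common zeros. -/

open MeasureTheory Filter Topology Metric
open scoped ENNReal NNReal

namespace Vale.Agent.P271.H408

theorem rpow_neg_anti {a b : ℝ≥0∞} (h : a ≤ b) {z : ℝ} (hz : 0 ≤ z) : b ^ (-z) ≤ a ^ (-z) := by
  rw [ENNReal.rpow_neg, ENNReal.rpow_neg]
  exact ENNReal.inv_le_inv.2 (ENNReal.rpow_le_rpow h hz)

/-- `|x - p|^{-2n}` is not integrable at `p ∈ ℂ^n`. -/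
theorem lintegral_sing_ball {n : ℕ} (hn : 0 < n) (p : Fin n → ℂ) {r K : ℝ} (hr : 0 < r)
    (hK : 0 < K) :
    ∫⁻ x in ball p r, (ENNReal.ofReal (K * ‖x - p‖ ^ 2)) ^ (-(n : ℝ)) = ⊤ := by
  by_contra h
  have : Nonempty (Fin n) := ⟨⟨0, hn⟩⟩
  set v : ℝ≥0∞ := volume (ball (0 : Fin n → ℂ) 1) with hv
  have hv0 : v ≠ 0 := (measure_ball_pos volume _ one_pos).ne'
  have hvt : v ≠ ⊤ := measure_ball_lt_top.ne
  have hfin : Module.finrank ℝ (Fin n → ℂ) = 2 * n := by
    rw [Module.finrank_pi_fintype]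
    simp [mul_comm]
  have hvol : ∀ s, 0 < s → volume (ball p s) = ENNReal.ofReal (s ^ (2 * n)) * v := by
    intro s hs
    rw [Measure.addHaar_ball volume p hs.le, hfin]
  have hlim : Tendsto (fun s : ℝ => (volume.restrict (ball p r)) (ball p s)) (𝓝[>] 0) (𝓝 0) := by
    have h1 : Tendsto (fun s : ℝ => ENNReal.ofReal (s ^ (2 * n)) * v) (𝓝[>] 0) (𝓝 0) := by
      have h2 : Tendsto (fun s : ℝ => s ^ (2 * n)) (𝓝[>] 0) (𝓝 0) := by
        have := (continuous_pow (M := ℝ) (2 * n)).tendsto 0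
        rw [zero_pow (by omega)] at this
        exact this.mono_left nhdsWithin_le_nhds
      have h3 := ENNReal.tendsto_ofReal h2
      rw [ENNReal.ofReal_zero] at h3
      have h4 := ENNReal.Tendsto.mul_const h3 (Or.inr hvt)
      rwa [zero_mul] at h4
    refine tendsto_of_tendsto_of_tendsto_of_le_of_le' tendsto_const_nhds h1
      (Eventually.of_forall fun _ => zero_le) ?_
    filter_upwards [self_mem_nhdsWithin] with s hs
    exact (Measure.restrict_apply_le _ _).trans (hvol s hs).le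
  have h2 := tendsto_setLIntegral_zero h hlim
  set c0 : ℝ≥0∞ := (ENNReal.ofReal K) ^ (-(n : ℝ)) * v with hc0
  have hc : c0 ≠ 0 := by
    refine mul_ne_zero ?_ hv0
    rw [ENNReal.rpow_neg]
    refine ENNReal.inv_ne_zero.2 ?_
    exact ENNReal.rpow_ne_top_of_nonneg (Nat.cast_nonneg n) ENNReal.ofReal_ne_top
  have hle : ∀ᶠ s in 𝓝[>] (0 : ℝ), c0 ≤
      ∫⁻ x in ball p s, (ENNReal.ofReal (K * ‖x - p‖ ^ 2)) ^ (-(n : ℝ))
        ∂(volume.restrict (ball p r)) := by
    filter_upwards [self_mem_nhdsWithin, nhdsWithin_le_nhds (Iic_mem_nhds hr)] with s hs hsr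
    rw [Measure.restrict_restrict measurableSet_ball,
      Set.inter_eq_left.2 (ball_subset_ball hsr)]
    have hs' : (0 : ℝ) < s := hs
    calc c0 = (ENNReal.ofReal (K * s ^ 2)) ^ (-(n : ℝ)) * volume (ball p s) := by
          rw [hvol s hs, hc0, ← mul_assoc]
          congr 1
          rw [ENNReal.ofReal_mul hK.le, ENNReal.mul_rpow_of_ne_top ENNReal.ofReal_ne_top
            ENNReal.ofReal_ne_top, mul_assoc]
          have h5 : (ENNReal.ofReal (s ^ 2)) ^ (-(n : ℝ)) * ENNReal.ofReal (s ^ (2 * n)) = 1 := by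
            rw [pow_mul, ENNReal.rpow_neg, ENNReal.rpow_natCast,
              ← ENNReal.ofReal_pow (by positivity)]
            refine ENNReal.inv_mul_cancel ?_ ?_
            · exact (ENNReal.ofReal_pos.2 (by positivity)).ne'
            · exact ENNReal.ofReal_ne_top
          rw [h5, mul_one]
      _ = ∫⁻ _ in ball p s, (ENNReal.ofReal (K * s ^ 2)) ^ (-(n : ℝ)) := by
          rw [setLIntegral_const]
      _ ≤ _ := by
          refine setLIntegral_mono' measurableSet_ball fun x hx => ?_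
          refine rpow_neg_anti (ENNReal.ofReal_le_ofReal ?_) (Nat.cast_nonneg n)
          have h6 : ‖x - p‖ < s := by rwa [← dist_eq_norm]
          gcongr
  have h3 : c0 ≤ 0 := ge_of_tendsto h2 hle
  exact hc (le_antisymm h3 zero_le)

section core

variable {n r : ℕ} {u : Fin r → (Fin (n + 1) → ℂ) → ℂ}

/-- The integrand is measurable on balls where the functions are continuous. -/
theorem measurable_indicator_sing {e z : ℝ} (hu : ∀ j, ContinuousOn (u j) (ball 0 e)) :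
    Measurable ((ball (0 : Fin (n + 1) → ℂ) e).indicator
      fun x => (ENNReal.ofReal (∑ j, ‖u j x‖ ^ 2)) ^ z) := by
  classical
  have h1 : ∀ j, Measurable ((ball (0 : Fin (n + 1) → ℂ) e).piecewise (u j) (fun _ => 0)) :=
    fun j => (hu j).measurable_piecewise continuousOn_const measurableSet_ball
  have h2 : (ball (0 : Fin (n + 1) → ℂ) e).indicator
      (fun x => (ENNReal.ofReal (∑ j, ‖u j x‖ ^ 2)) ^ z) =
      (ball (0 : Fin (n + 1) → ℂ) e).indicator (fun x => (ENNReal.ofReal (∑ j,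
        ‖(ball (0 : Fin (n + 1) → ℂ) e).piecewise (u j) (fun _ => 0) x‖ ^ 2)) ^ z) := by
    refine Set.indicator_congr fun x hx => ?_
    congr 2
    refine Finset.sum_congr rfl fun j _ => ?_
    rw [Set.piecewise_eq_of_mem _ _ _ hx]
  rw [h2]
  refine Measurable.indicator ?_ measurableSet_ball
  refine Measurable.pow_const ?_ _
  exact (Finset.measurable_sum _ fun j _ => (h1 j).norm.pow_const 2).ennreal_ofReal

theorem norm_insertNth_sub_le (j0 : Fin (n + 1)) (a : ℂ) (x p : Fin n → ℂ) :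
    ‖(j0.insertNth a x : Fin (n + 1) → ℂ) - (j0.insertNth a p : Fin (n + 1) → ℂ)‖ ≤ ‖x - p‖ := by
  refine (pi_norm_le_iff_of_nonneg (norm_nonneg _)).2 fun i => ?_
  rcases Fin.eq_self_or_eq_succAbove j0 i with rfl | ⟨k, rfl⟩
  · simp
  · simp only [Pi.sub_apply, Fin.insertNth_apply_succAbove]
    exact norm_le_pi_norm (x - p) k

theorem lintegral_slice (j0 : Fin (n + 1)) {G : (Fin (n + 1) → ℂ) → ℝ≥0∞} (hG : Measurable G) :
    ∫⁻ x, G x = ∫⁻ a : ℂ, ∫⁻ x : Fin n → ℂ, G (j0.insertNth a x) := by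
  have h1 := (volume_preserving_piFinSuccAbove (fun _ : Fin (n + 1) => ℂ) j0).symm
  rw [← h1.lintegral_comp hG]
  exact lintegral_prod (fun p => G ((MeasurableEquiv.piFinSuccAbove (fun _ => ℂ) j0).symm p))
    (hG.comp h1.measurable).aemeasurable

theorem nonint_core (hn : 0 < n) (hu : ∀ j, ContDiffAt ℝ 1 (u j) 0) (j0 : Fin (n + 1))
    (hz : ∀ s > 0, ∃ η > 0, ∀ a : ℂ, ‖a‖ < η →
      ∃ q ∈ ball (0 : Fin (n + 1) → ℂ) s, q j0 = a ∧ ∀ j, u j q = 0)
    {ε : ℝ} (hε : 0 < ε) :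
    ∫⁻ x in ball (0 : Fin (n + 1) → ℂ) ε, (ENNReal.ofReal (∑ j, ‖u j x‖ ^ 2)) ^ (-(n : ℝ)) = ⊤ := by
  choose K t ht hL using fun j => (hu j).exists_lipschitzOnWith
  obtain ⟨e', he', hsub⟩ := Metric.mem_nhds_iff.1 (Filter.iInter_mem.2 ht)
  set e := min e' ε with he
  have he0 : 0 < e := lt_min he' hε
  have hLe : ∀ j, LipschitzOnWith (K j) (u j) (ball 0 e) := fun j => (hL j).mono
    ((ball_subset_ball (min_le_left _ _)).trans (hsub.trans (Set.iInter_subset t j)))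
  set K' : ℝ := ∑ j, (K j : ℝ) ^ 2 + 1 with hK'
  have hK0 : 0 < K' := by positivity
  have hbd : ∀ x ∈ ball (0 : Fin (n + 1) → ℂ) e, ∀ q ∈ ball (0 : Fin (n + 1) → ℂ) e,
      (∀ j, u j q = 0) → ∑ j, ‖u j x‖ ^ 2 ≤ K' * ‖x - q‖ ^ 2 := by
    intro x hx q hq h0
    have h1 : ∀ j, ‖u j x‖ ^ 2 ≤ (K j : ℝ) ^ 2 * ‖x - q‖ ^ 2 := by
      intro j
      have h2 := (hLe j).dist_le_mul x hx q hq
      rw [h0 j, dist_zero_right, dist_eq_norm] at h2
      rw [← mul_pow]
      gcongr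
    calc ∑ j, ‖u j x‖ ^ 2 ≤ ∑ j, (K j : ℝ) ^ 2 * ‖x - q‖ ^ 2 := Finset.sum_le_sum fun j _ => h1 j
      _ = (∑ j, (K j : ℝ) ^ 2) * ‖x - q‖ ^ 2 := by rw [Finset.sum_mul]
      _ ≤ K' * ‖x - q‖ ^ 2 := by
          rw [hK']
          gcongr
          linarith
  refine le_antisymm le_top ?_
  refine le_trans ?_ (lintegral_mono_set (ball_subset_ball (min_le_right e' ε)))
  rw [← lintegral_indicator measurableSet_ball, lintegral_slice j0
    (measurable_indicator_sing fun j => (hLe j).continuousOn)]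
  obtain ⟨η, hη, hη'⟩ := hz (e / 2) (half_pos he0)
  have hin : ∀ a ∈ ball (0 : ℂ) η, (⊤ : ℝ≥0∞) ≤
      ∫⁻ x : Fin n → ℂ, (ball (0 : Fin (n + 1) → ℂ) e).indicator
        (fun x => (ENNReal.ofReal (∑ j, ‖u j x‖ ^ 2)) ^ (-(n : ℝ))) (j0.insertNth a x) := by
    intro a ha
    obtain ⟨q, hq, hqa, hq0⟩ := hη' a (by rwa [mem_ball_zero_iff] at ha)
    set p : Fin n → ℂ := j0.removeNth q with hp
    have hqp : (j0.insertNth a p : Fin (n + 1) → ℂ) = q := by
      rw [hp, ← hqa]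
      exact Fin.insertNth_self_removeNth j0 q
    rw [← lintegral_sing_ball hn p (half_pos he0) hK0, ← lintegral_indicator measurableSet_ball]
    refine lintegral_mono fun x => ?_
    by_cases hx : x ∈ ball p (e / 2)
    · have h1 : ‖(j0.insertNth a x : Fin (n + 1) → ℂ) - q‖ ≤ ‖x - p‖ := by
        conv_lhs => rw [← hqp]
        exact norm_insertNth_sub_le j0 a x p
      have h2 : ‖x - p‖ < e / 2 := by rwa [← dist_eq_norm]
      have h3 : ‖q‖ < e / 2 := by rwa [mem_ball_zero_iff] at hq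
      have h4 : (j0.insertNth a x : Fin (n + 1) → ℂ) ∈ ball (0 : Fin (n + 1) → ℂ) e := by
        rw [mem_ball_zero_iff]
        calc ‖(j0.insertNth a x : Fin (n + 1) → ℂ)‖ =
            ‖((j0.insertNth a x : Fin (n + 1) → ℂ) - q) + q‖ := by rw [sub_add_cancel]
          _ ≤ ‖(j0.insertNth a x : Fin (n + 1) → ℂ) - q‖ + ‖q‖ := norm_add_le _ _
          _ < e := by linarith
      rw [Set.indicator_of_mem hx, Set.indicator_of_mem h4]
      refine rpow_neg_anti (ENNReal.ofReal_le_ofReal ?_) (Nat.cast_nonneg n)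
      refine (hbd _ h4 q (ball_subset_ball (by linarith) hq) hq0).trans ?_
      gcongr
    · rw [Set.indicator_of_notMem hx]
      exact zero_le
  calc (⊤ : ℝ≥0∞) = ∫⁻ _ in ball (0 : ℂ) η, (⊤ : ℝ≥0∞) := by
        rw [setLIntegral_const, ENNReal.top_mul (measure_ball_pos volume _ hη).ne']
    _ ≤ ∫⁻ a in ball (0 : ℂ) η, ∫⁻ x : Fin n → ℂ, (ball (0 : Fin (n + 1) → ℂ) e).indicator
        (fun x => (ENNReal.ofReal (∑ j, ‖u j x‖ ^ 2)) ^ (-(n : ℝ))) (j0.insertNth a x) :=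
        setLIntegral_mono' measurableSet_ball hin
    _ ≤ _ := setLIntegral_le_lintegral _ _

end core

/-- The same with a larger exponent. -/
theorem lintegral_sing_ball' {n : ℕ} (hn : 0 < n) (p : Fin n → ℂ) {r K : ℝ} (hr : 0 < r)
    (hK : 0 < K) {κ : ℝ} (hκ : (n : ℝ) ≤ κ) :
    ∫⁻ x in ball p r, (ENNReal.ofReal (K * ‖x - p‖ ^ 2)) ^ (-κ) = ⊤ := by
  set s := min r (Real.sqrt (1 / K)) with hs
  have hs0 : 0 < s := lt_min hr (Real.sqrt_pos.2 (by positivity))
  refine le_antisymm le_top ?_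
  rw [← lintegral_sing_ball hn p hs0 hK]
  refine le_trans (setLIntegral_mono' measurableSet_ball fun x hx => ?_)
    (lintegral_mono_set (ball_subset_ball (min_le_left _ _)))
  rw [ENNReal.rpow_neg, ENNReal.rpow_neg]
  refine ENNReal.inv_le_inv.2 (ENNReal.rpow_le_rpow_of_exponent_ge ?_ hκ)
  refine ENNReal.ofReal_le_one.2 ?_
  have h1 : ‖x - p‖ ≤ Real.sqrt (1 / K) := by
    rw [← dist_eq_norm]
    exact (mem_ball.1 hx).le.trans (min_le_right _ _)
  calc K * ‖x - p‖ ^ 2 ≤ K * Real.sqrt (1 / K) ^ 2 := by gcongr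
    _ = 1 := by
        rw [Real.sq_sqrt (by positivity)]
        field_simp

end Vale.Agent.P271.H408
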