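import Mathlib
import Vale.Agent.P271.Zorn.LocInt

/-! P271 (helper408), block SUMTYPE: from `∏|f|^{-2k} (max_j |t_j|)^{-2κ} ∈ L¹` to a single linear
combination `t` of the `t_j` (Tonelli). -/

open MeasureTheory Filter Topology Metric
open scoped ENNReal NNReal

namespace Vale.Agent.P271.H408

/-- `∫_{|s| < 1} |s|^{-2κ} < ∞` for `κ < 1`. -/
theorem lintegral_ball_rpow {κ : ℝ} (hκ : κ < 1) :
    ∫⁻ s in ball (0 : ℂ) 1, ‖s‖ₑ ^ (-(2 * κ)) < ⊤ := by
  have h1 : IntegrableOn (fun x : ℂ => ‖x‖ ^ (-(2 * κ))) (ball (0 : ℂ) 1) := by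
    rw [integrableOn_fun_norm_addHaar (μ := (volume : Measure ℂ))
      (f := fun y : ℝ => y ^ (-(2 * κ))), Complex.finrank_real_complex]
    have h2 : IntegrableOn (fun y : ℝ => y ^ (1 - 2 * κ)) (Set.Ioo 0 1) :=
      (intervalIntegral.integrableOn_Ioo_rpow_iff zero_lt_one).2 (by linarith)
    refine h2.congr_fun (fun y hy => ?_) measurableSet_Ioo
    simp only [smul_eq_mul]
    rw [show (2 - 1 : ℕ) = 1 from rfl, pow_one, sub_eq_add_neg, Real.rpow_add hy.1, Real.rpow_one]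
  have h3 := h1.2
  rw [HasFiniteIntegral] at h3
  refine lt_of_le_of_lt (le_of_eq ?_) h3
  apply lintegral_congr_ae
  have h4 : ∀ᵐ s : ℂ, s ≠ 0 := by
    rw [ae_iff]
    simp
  filter_upwards [ae_restrict_of_ae h4] with s hs
  have hs' : 0 < ‖s‖ := norm_pos_iff.2 hs
  rw [Real.enorm_eq_ofReal (by positivity), ← ofReal_norm, ENNReal.ofReal_rpow_of_pos hs']

/-- The constant. -/
noncomputable def Cκ (κ : ℝ) : ℝ≥0∞ :=
  volume (closedBall (0 : ℂ) 1) + ∫⁻ s in ball (0 : ℂ) 1, ‖s‖ₑ ^ (-(2 * κ))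

theorem Cκ_lt_top {κ : ℝ} (hκ : κ < 1) : Cκ κ < ⊤ :=
  ENNReal.add_lt_top.2 ⟨measure_closedBall_lt_top, lintegral_ball_rpow hκ⟩

theorem Cκ_ne_zero (κ : ℝ) : Cκ κ ≠ 0 := by
  have h1 : 0 < volume (closedBall (0 : ℂ) 1) := measure_closedBall_pos volume (0 : ℂ) one_pos
  exact (h1.trans_le le_self_add).ne'

theorem measurable_rpow_enorm (κ : ℝ) : Measurable (fun s : ℂ => ‖s‖ₑ ^ (-(2 * κ))) := by
  fun_prop

theorem lintegral_shift {κ : ℝ} (hκ0 : 0 < κ) (c : ℂ) :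
    ∫⁻ s in closedBall (0 : ℂ) 1, ‖s + c‖ₑ ^ (-(2 * κ)) ≤ Cκ κ := by
  have h1 : ∀ s : ℂ, ‖s + c‖ₑ ^ (-(2 * κ)) ≤
      1 + (ball (0 : ℂ) 1).indicator (fun s => ‖s‖ₑ ^ (-(2 * κ))) (s + c) := by
    intro s
    by_cases hs : s + c ∈ ball (0 : ℂ) 1
    · rw [Set.indicator_of_mem hs]
      exact le_add_self
    · rw [Set.indicator_of_notMem hs, add_zero]
      have h2 : 1 ≤ ‖s + c‖ₑ := by
        rw [mem_ball_zero_iff, not_lt] at hs
        rw [← ofReal_norm, ← ENNReal.ofReal_one]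
        exact ENNReal.ofReal_le_ofReal hs
      rw [ENNReal.rpow_neg]
      rw [ENNReal.inv_le_one]
      exact ENNReal.one_le_rpow h2 (by positivity)
  have hm : Measurable ((ball (0 : ℂ) 1).indicator (fun s => ‖s‖ₑ ^ (-(2 * κ)))) :=
    (measurable_rpow_enorm κ).indicator measurableSet_ball
  calc ∫⁻ s in closedBall (0 : ℂ) 1, ‖s + c‖ₑ ^ (-(2 * κ))
      ≤ ∫⁻ s in closedBall (0 : ℂ) 1,
        (1 + (ball (0 : ℂ) 1).indicator (fun s => ‖s‖ₑ ^ (-(2 * κ))) (s + c)) :=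
        lintegral_mono h1
    _ = volume (closedBall (0 : ℂ) 1) + ∫⁻ s in closedBall (0 : ℂ) 1,
        (ball (0 : ℂ) 1).indicator (fun s => ‖s‖ₑ ^ (-(2 * κ))) (s + c) := by
        rw [lintegral_add_left measurable_const, setLIntegral_const, one_mul]
    _ ≤ volume (closedBall (0 : ℂ) 1) + ∫⁻ s : ℂ,
        (ball (0 : ℂ) 1).indicator (fun s => ‖s‖ₑ ^ (-(2 * κ))) (s + c) := by
        gcongr
        exact Measure.restrict_le_self
    _ = Cκ κ := by
        rw [lintegral_add_right_eq_self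
          ((ball (0 : ℂ) 1).indicator (fun s : ℂ => ‖s‖ₑ ^ (-(2 * κ)))) c,
          lintegral_indicator measurableSet_ball]
        rfl

theorem lintegral_affine {κ : ℝ} (hκ0 : 0 < κ) (a c : ℂ) :
    ∫⁻ s in closedBall (0 : ℂ) 1, ‖s * a + c‖ₑ ^ (-(2 * κ)) ≤ Cκ κ * ‖a‖ₑ ^ (-(2 * κ)) := by
  by_cases ha : a = 0
  · rw [ha, enorm_zero, ENNReal.zero_rpow_of_neg (by linarith), ENNReal.mul_top (Cκ_ne_zero κ)]
    exact le_top
  · have h2 : ∀ s : ℂ, ‖s * a + c‖ₑ ^ (-(2 * κ)) =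
        ‖s + c / a‖ₑ ^ (-(2 * κ)) * ‖a‖ₑ ^ (-(2 * κ)) := by
      intro s
      have h3 : s * a + c = (s + c / a) * a := by field_simp
      rw [h3, enorm_mul, ENNReal.mul_rpow_of_ne_top enorm_ne_top enorm_ne_top]
    simp only [h2]
    rw [lintegral_mul_const _ (by
      exact (measurable_rpow_enorm κ).comp (measurable_id.add_const _))]
    gcongr
    exact lintegral_shift hκ0 _

variable {r : ℕ}

/-- Average over a ball of coefficients. -/
theorem lintegral_coeff {κ : ℝ} (hκ0 : 0 < κ) (a : Fin r → ℂ) (i : Fin r) :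
    ∫⁻ v in closedBall (0 : Fin r → ℂ) 1, ‖∑ j, v j * a j‖ₑ ^ (-(2 * κ)) ≤
      (volume (closedBall (0 : ℂ) 1))⁻¹ * (volume (closedBall (0 : Fin r → ℂ) 2) * Cκ κ) *
        ‖a i‖ₑ ^ (-(2 * κ)) := by
  set V : ℝ≥0∞ := volume (closedBall (0 : ℂ) 1) with hV
  have hV0 : V ≠ 0 := (measure_closedBall_pos volume (0 : ℂ) one_pos).ne'
  have hVt : V ≠ ⊤ := measure_closedBall_lt_top.ne
  set g : (Fin r → ℂ) → ℝ≥0∞ := fun v => ‖∑ j, v j * a j‖ₑ ^ (-(2 * κ)) with hg
  have hgm : Measurable g := by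
    apply (measurable_rpow_enorm κ).comp
    fun_prop
  -- translation
  have h1 : ∀ s ∈ closedBall (0 : ℂ) 1, ∫⁻ v in closedBall (0 : Fin r → ℂ) 1, g v ≤
      ∫⁻ v in closedBall (0 : Fin r → ℂ) 2, g (v + Pi.single i s) := by
    intro s hs
    rw [← lintegral_indicator measurableSet_closedBall,
      ← lintegral_indicator measurableSet_closedBall,
      ← lintegral_add_right_eq_self _ (Pi.single i s)]
    apply lintegral_mono
    intro v
    beta_reduce
    by_cases hv : v + Pi.single i s ∈ closedBall (0 : Fin r → ℂ) 1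
    · have hv2 : v ∈ closedBall (0 : Fin r → ℂ) 2 := by
        rw [mem_closedBall_zero_iff] at hv hs ⊢
        have h3 : ‖(Pi.single i s : Fin r → ℂ)‖ ≤ 1 := by
          rw [Pi.norm_single]; exact hs
        calc ‖v‖ = ‖(v + Pi.single i s) - Pi.single i s‖ := by rw [add_sub_cancel_right]
          _ ≤ ‖v + Pi.single i s‖ + ‖(Pi.single i s : Fin r → ℂ)‖ := norm_sub_le _ _
          _ ≤ 2 := by linarith
      rw [Set.indicator_of_mem hv, Set.indicator_of_mem hv2]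
    · rw [Set.indicator_of_notMem hv]
      exact zero_le
  -- average over `s`
  have h2 : V * ∫⁻ v in closedBall (0 : Fin r → ℂ) 1, g v ≤
      ∫⁻ s in closedBall (0 : ℂ) 1, ∫⁻ v in closedBall (0 : Fin r → ℂ) 2,
        g (v + Pi.single i s) := by
    rw [mul_comm, ← setLIntegral_const]
    exact setLIntegral_mono' measurableSet_closedBall h1
  have hmeas : Measurable (Function.uncurry fun (s : ℂ) (v : Fin r → ℂ) =>
      g (v + Pi.single i s)) := by
    apply hgm.comp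
    apply Continuous.measurable
    have : Continuous fun s : ℂ => (Pi.single i s : Fin r → ℂ) :=
      continuous_single (A := fun _ : Fin r => ℂ) i
    exact continuous_snd.add (this.comp continuous_fst)
  rw [lintegral_lintegral_swap hmeas.aemeasurable] at h2
  have h3 : ∀ v : Fin r → ℂ, ∫⁻ s in closedBall (0 : ℂ) 1, g (v + Pi.single i s) ≤
      Cκ κ * ‖a i‖ₑ ^ (-(2 * κ)) := by
    intro v
    have h4 : ∀ s : ℂ, g (v + Pi.single i s) =
        ‖s * a i + ∑ j, v j * a j‖ₑ ^ (-(2 * κ)) := by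
      intro s
      have h5 : ∑ j, (v + (Pi.single i s : Fin r → ℂ)) j * a j = s * a i + ∑ j, v j * a j := by
        simp only [Pi.add_apply, add_mul, Finset.sum_add_distrib]
        rw [add_comm]
        congr 1
        rw [Finset.sum_eq_single i]
        · rw [Pi.single_eq_same]
        · intro j _ hj
          rw [Pi.single_eq_of_ne hj, zero_mul]
        · intro h
          exact absurd (Finset.mem_univ i) h
      simp only [hg]
      rw [h5]
    simp only [h4]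
    exact lintegral_affine hκ0 _ _
  have h4 : V * ∫⁻ v in closedBall (0 : Fin r → ℂ) 1, g v ≤
      volume (closedBall (0 : Fin r → ℂ) 2) * (Cκ κ * ‖a i‖ₑ ^ (-(2 * κ))) := by
    refine h2.trans ((lintegral_mono h3).trans (le_of_eq ?_))
    rw [setLIntegral_const, mul_comm]
  calc ∫⁻ v in closedBall (0 : Fin r → ℂ) 1, g v
      = V⁻¹ * (V * ∫⁻ v in closedBall (0 : Fin r → ℂ) 1, g v) := by
        rw [← mul_assoc, ENNReal.inv_mul_cancel hV0 hVt, one_mul]
    _ ≤ V⁻¹ * (volume (closedBall (0 : Fin r → ℂ) 2) * (Cκ κ * ‖a i‖ₑ ^ (-(2 * κ)))) := by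
        gcongr
    _ = V⁻¹ * (volume (closedBall (0 : Fin r → ℂ) 2) * Cκ κ) * ‖a i‖ₑ ^ (-(2 * κ)) := by
        ring

/-- With the maximum of the `|a_j|`. -/
theorem lintegral_coeff_max {κ : ℝ} (hκ0 : 0 < κ) (hκ : κ < 1) :
    ∃ C : ℝ≥0∞, C < ⊤ ∧ ∀ a : Fin r → ℂ,
      ∫⁻ v in closedBall (0 : Fin r → ℂ) 1, ‖∑ j, v j * a j‖ₑ ^ (-(2 * κ)) ≤
        C * ‖a‖ₑ ^ (-(2 * κ)) := by
  refine ⟨(volume (closedBall (0 : ℂ) 1))⁻¹ * (volume (closedBall (0 : Fin r → ℂ) 2) * Cκ κ),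
    ?_, ?_⟩
  · refine ENNReal.mul_lt_top ?_ (ENNReal.mul_lt_top measure_closedBall_lt_top (Cκ_lt_top hκ))
    exact ENNReal.inv_lt_top.2 (measure_closedBall_pos volume (0 : ℂ) one_pos)
  · intro a
    rcases Nat.eq_zero_or_pos r with hr | hr
    · subst hr
      have ha : a = 0 := Subsingleton.elim _ _
      rw [ha, enorm_zero, ENNReal.zero_rpow_of_neg (by linarith), ENNReal.mul_top]
      · exact le_top
      · have h1 : volume (closedBall (0 : Fin 0 → ℂ) 2) ≠ 0 :=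
          (measure_closedBall_pos volume (0 : Fin 0 → ℂ) two_pos).ne'
        exact mul_ne_zero (ENNReal.inv_ne_zero.2 measure_closedBall_lt_top.ne)
          (mul_ne_zero h1 (Cκ_ne_zero κ))
    · have : Nonempty (Fin r) := ⟨⟨0, hr⟩⟩
      obtain ⟨i, hi⟩ : ∃ i, ‖a i‖ = ‖a‖ := by
        obtain ⟨i, -, hi⟩ := Finset.exists_mem_eq_sup' (Finset.univ_nonempty (α := Fin r))
          (fun i => ‖a i‖)
        refine ⟨i, ?_⟩
        apply le_antisymm (norm_le_pi_norm a i)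
        rw [pi_norm_le_iff_of_nonneg (norm_nonneg _)]
        intro j
        rw [← hi]
        exact Finset.le_sup' (fun i => ‖a i‖) (Finset.mem_univ j)
      have h1 : ‖a‖ₑ = ‖a i‖ₑ := by
        rw [← ofReal_norm, ← ofReal_norm, hi]
      rw [h1]
      exact lintegral_coeff hκ0 a i

/-- **Tonelli**: almost every linear combination is as integrable as the maximum. -/
theorem ae_lintegral_lt_top {X : Type*} [MeasurableSpace X] {μ : Measure X} [SFinite μ]
    {κ : ℝ} (hκ0 : 0 < κ) (hκ : κ < 1) {w : X → ℝ≥0∞} (hw : AEMeasurable w μ)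
    {T : Fin r → X → ℂ} (hT : ∀ j, AEMeasurable (T j) μ)
    (hi : ∫⁻ x, w x * ‖fun j => T j x‖ₑ ^ (-(2 * κ)) ∂μ < ⊤) :
    ∀ᵐ v ∂(volume.restrict (closedBall (0 : Fin r → ℂ) 1)),
      ∫⁻ x, w x * ‖∑ j, v j * T j x‖ₑ ^ (-(2 * κ)) ∂μ < ⊤ := by
  obtain ⟨C, hC, hCb⟩ := lintegral_coeff_max (r := r) hκ0 hκ
  -- measurable representatives
  have hmeas : AEMeasurable (Function.uncurry fun (v : Fin r → ℂ) (x : X) =>
      w x * ‖∑ j, v j * T j x‖ₑ ^ (-(2 * κ)))
      ((volume.restrict (closedBall (0 : Fin r → ℂ) 1)).prod μ) := by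
    apply AEMeasurable.mul
    · exact hw.comp_snd
    · apply (measurable_rpow_enorm κ).comp_aemeasurable
      apply Finset.aemeasurable_fun_sum
      intro j _
      apply AEMeasurable.mul
      · have : Measurable fun p : (Fin r → ℂ) × X => p.1 j := by fun_prop
        exact this.aemeasurable
      · exact (hT j).comp_snd
  have h1 : ∫⁻ v in closedBall (0 : Fin r → ℂ) 1,
      ∫⁻ x, w x * ‖∑ j, v j * T j x‖ₑ ^ (-(2 * κ)) ∂μ < ⊤ := by
    rw [lintegral_lintegral_swap hmeas]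
    have h2 : ∀ x, ∫⁻ v in closedBall (0 : Fin r → ℂ) 1,
        w x * ‖∑ j, v j * T j x‖ₑ ^ (-(2 * κ)) ≤ C * (w x * ‖fun j => T j x‖ₑ ^ (-(2 * κ))) := by
      intro x
      rw [lintegral_const_mul]
      · calc w x * ∫⁻ v in closedBall (0 : Fin r → ℂ) 1, ‖∑ j, v j * T j x‖ₑ ^ (-(2 * κ))
            ≤ w x * (C * ‖fun j => T j x‖ₑ ^ (-(2 * κ))) := by
              gcongr
              exact hCb fun j => T j x
          _ = C * (w x * ‖fun j => T j x‖ₑ ^ (-(2 * κ))) := by ring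
      · apply (measurable_rpow_enorm κ).comp
        fun_prop
    refine (lintegral_mono h2).trans_lt ?_
    rw [lintegral_const_mul' _ _ hC.ne]
    exact ENNReal.mul_lt_top hC hi
  exact ae_lt_top' hmeas.lintegral_prod_right' h1.ne

open Vale.Agent.P271.Zorn Finsupp in
/-- **SUMTYPE**: if `∏|f|^{-2 k_f} (max_j |T_j|)^{-2κ}` is integrable near the point (`0 < κ < 1`),
then `k + κ[t] ∈ P` for some linear combination `t = Σ v_j T_j` with `v` off any given null set. -/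
theorem sumtype {H X : Type*} [MeasurableSpace X] {μ : Measure X} {l : Filter X} [CommMonoid H]
    {ev : H → X → ℂ} [SFinite μ] (h : IsEv μ l ev) (k : H →₀ ℝ) {κ : ℝ} (hκ0 : 0 < κ) (hκ : κ < 1)
    {T : Fin r → X → ℂ} (hT : ∃ U ∈ l, ∀ j, AEMeasurable (T j) (μ.restrict U))
    (hi : LI μ l fun x => wt ev k x * ‖fun j => T j x‖ₑ ^ (-(2 * κ)))
    {N : Set (Fin r → ℂ)} (hN : volume N = 0) (t : (Fin r → ℂ) → H)
    (ht : ∀ v ∉ N, ∀ᶠ x in l ⊓ ae μ, ev (t v) x = ∑ j, v j * T j x) :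
    ∃ v ∉ N, ‖v‖ ≤ 1 ∧ k + single (t v) κ ∈ PP μ l ev := by
  obtain ⟨U₁, hU₁, hT⟩ := hT
  obtain ⟨U₂, hU₂, hi⟩ := hi
  obtain ⟨U₃, hU₃, hw⟩ := h.meas_wt k
  set U := U₁ ∩ U₂ ∩ U₃ with hU
  have hUl : U ∈ l := inter_mem (inter_mem hU₁ hU₂) hU₃
  have h1 := ae_lintegral_lt_top (μ := μ.restrict U) hκ0 hκ
    (hw.mono_measure (Measure.restrict_mono_set _ Set.inter_subset_right))
    (fun j => (hT j).mono_measure (Measure.restrict_mono_set _
      (Set.inter_subset_left.trans Set.inter_subset_left)))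
    ((lintegral_mono_set (Set.inter_subset_left.trans Set.inter_subset_right)).trans_lt hi)
  have h2 : ∀ᵐ v ∂(volume.restrict (closedBall (0 : Fin r → ℂ) 1)), v ∉ N :=
    ae_restrict_of_ae (measure_eq_zero_iff_ae_notMem.1 hN)
  have h3 : (ae (volume.restrict (closedBall (0 : Fin r → ℂ) 1))).NeBot := by
    rw [ae_neBot, Ne, Measure.restrict_eq_zero]
    exact (measure_closedBall_pos volume (0 : Fin r → ℂ) one_pos).ne'
  obtain ⟨v, ⟨hv1, hv2⟩, hv3⟩ := ((h1.and h2).and (ae_restrict_mem measurableSet_closedBall)).exists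
  refine ⟨v, hv2, by simpa using hv3, ?_⟩
  have h4 : LI μ l fun x => wt ev k x * ‖∑ j, v j * T j x‖ₑ ^ (-(2 * κ)) := ⟨U, hUl, hv1⟩
  refine LI.mono h.bas ?_ h4
  filter_upwards [ht v hv2, h.ne (t v)] with x hx hne
  rw [← hx]
  unfold wt
  have h5 : 0 < ‖ev (t v) x‖ := norm_pos_iff.2 hne
  rw [← ofReal_norm, ENNReal.ofReal_rpow_of_pos h5, ← ENNReal.ofReal_mul (by positivity)]
  apply ENNReal.ofReal_le_ofReal
  rw [lg_add, lg_single, Real.rpow_def_of_pos h5, ← Real.exp_add]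
  apply le_of_eq
  congr 1
  ring

end Vale.Agent.P271.H408
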